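import Crest.Agent.X212.Eq82.Defs
import Crest.Agent.X212.Abel74.Form
import Crest.Agent.X212.Num57.Hod
import Crest.Agent.X212.Met55.Mix

/-!
# Row 212, AN5: the leaves and the statement `NV`

`X : Bk I M ι` is a closed oriented Riemannian four-manifold, `L` a line.
-/

set_option autoImplicit false
set_option linter.unusedSectionVars false
noncomputable section
open scoped Manifold ContDiff Topology InnerProductSpace
open MeasureTheory Set Function Filter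

namespace Crest.Agent.X212.Eq82
open An Mod61 Abel74 Crest.Agent.R208.F
open Line51 (Ln)
open Dr59 (HR Cl)

variable {E : Type} [NormedAddCommGroup E] [NormedSpace ℝ E] [FiniteDimensional ℝ E]
  [MeasurableSpace E] [BorelSpace E]
  {HM : Type} [TopologicalSpace HM] {I : ModelWithCorners ℝ E HM} [I.Boundaryless]
  {M : Type} [TopologicalSpace M] [ChartedSpace HM M] [IsManifold I ∞ M]
  [MeasurableSpace M] [BorelSpace M] [SecondCountableTopology M] [T2Space M] [CompactSpace M]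
  {ι : Type} [Fintype ι] [DecidableEq ι] {κ : Type} [Fintype κ] [DecidableEq κ] {r n : ℕ}

variable (I M) in
/-- second cohomology -/
abbrev H2 : Type := HR I 2 (univ : Set M)

open Classical in
variable (I) in
/-- the class of a closed two-form -/
def cl2 (a : M → Ext E) : H2 I M := if h : Cl I 2 univ a then h.cls else 0

variable (I) in
/-- the class of a line -/
def lcl (L : Ln E M κ) : H2 I M := (2 * Real.pi)⁻¹ • cl2 I (L.F I)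

variable (I M) in
/-- the lattice generated by the classes of lines -/
def Lat : AddSubgroup (H2 I M) := AddSubgroup.closure
  {c | ∃ (κ : Type) (_ : Fintype κ) (_ : DecidableEq κ) (L : Ln E M κ), L.On I univ ∧ c = lcl I L}

/-- the label `K' - Λ` of a reduction -/
def lab {lam : Type} [Fintype lam] (F : Fr I M ι) (c : Cfg M ι lam r) (ξ : M → c.m.A) : H2 I M :=
  Real.pi⁻¹ • cl2 I (Abel74.fm F c.m c.W ξ)

variable (I M ι) in
/-- a frame with the components of its orientation -/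
structure Bk where
  F : Fr I M ι
  o : ι → ι → ι → ι → M → ℝ
  ok : Num57.OK F o

namespace Bk
variable (X : Bk I M ι)

/-- the intersection form -/
def Q : H2 I M →ₗ[ℝ] H2 I M →ₗ[ℝ] ℝ := Num57.Q X.ok.ori

/-- the background with the line `L` -/
abbrev B (L : Ln E M κ) : Base M ι (κ ⊕ κ) := L.base X.F.P X.o

/-- the index of the full complex (no `z`, no circle) is `6 κ + d0` -/
def d0 (L : Ln E M κ) : ℝ :=
  (X.Q (lcl I L) (lcl I L) - ((Num57.bp X.ok.ori : ℝ) - Num57.bm X.ok.ori)) / 2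
    - 3 * ((Num57.bb I M 0 : ℝ) - Num57.bb I M 1 + Num57.bp X.ok.ori)

/-- positive deformations of the frame -/
structure Pos (F : Fr I M ι) : Prop where
  vol : F.IsVol
  P : F.P = X.F.P
  ori : Int54.SameOn (Num57.vol F X.o) (Num57.vol X.F X.o) univ
  dfm : ∃ A : M → Matrix ι ι ℝ, (∀ a b, Sm I fun x => A x a b) ∧
    (∀ x, Met55.Adm (Matrix.of fun a b => X.F.P a b x) (A x)) ∧ F.e = Met55.dfm A X.F.e

/-- positive pairs of closed forms -/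
structure Sy (w w' : M → Ext E) : Prop where
  cl : Cl I 2 univ w
  cl' : Cl I 2 univ w'
  pos : ∀ x, 0 < Int54.rat (Num57.vol X.F X.o) (w * w) x
  pos' : ∀ x, 0 < Int54.rat (Num57.vol X.F X.o) (w' * w') x
  mix : ∀ x, 0 ≤ Int54.rat (Num57.vol X.F X.o) (w * w') x

end Bk

/-- a path of frames -/
structure Pa (X : Bk I M ι) (L : Ln E M κ) where
  𝔉 : Fam I M ι (κ ⊕ κ) ℝ
  F : ℝ → Fr I M ι
  ok : 𝔉.OK
  B : 𝔉.B = X.B L
  Q : 𝔉.Q = univ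
  Om : 𝔉.Om = univ
  Om' : 𝔉.Om' = univ
  G : ∀ t, 𝔉.G t = L.geo (F t)
  pos : ∀ t, X.Pos (F t)

variable {X : Bk I M ι} {L : Ln E M κ}

/-- the generic terms -/
abbrev WW (X : Bk I M ι) (κ : Type) [Fintype κ] (r n : ℕ) : Type := Wt (κ ⊕ κ) r n X.F

/-- the perturbation `τ + ∑ q` -/
abbrev pq (X : Bk I M ι) (L : Ln E M κ) (F : Fr I M ι) (τ : Pt M ι (κ ⊕ κ) r n)
    (q : WW X κ r n →₀ ℝ) : Pt M ι (κ ⊕ κ) r n := τ.add (wq (X.B L) F q)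

/-- observables, weight two scalars and labels pass to the limit -/
structure Out (X : Bk I M ι) {α : Type} (l : Filter α) (F : α → Fr I M ι) (F₀ : Fr I M ι)
    (c : α → Cfg M ι (κ ⊕ κ) r) (c₀ : Cfg M ι (κ ⊕ κ) r) : Prop where
  ob : ∀ o : Ob X.F, Tendsto (fun i => ob (F i) (c i) o) l (𝓝 (ob F₀ c₀ o))
  sg : ∀ g : Sg M (κ ⊕ κ), g.OK X.F → Tendsto (fun i => ‖(c i).sg (F i) g‖) l (𝓝 ‖c₀.sg F₀ g‖)
  spt : ∀ ξ : ∀ i, M → (c i).m.A, (∀ᶠ i in l, SPt (F i) (c i) (ξ i)) → ∃ ξ₀, SPt F₀ c₀ ξ₀ ∧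
    ∀ b, Tendsto (fun i => X.Q (lab (F i) (c i) (ξ i)) b) l (𝓝 (X.Q (lab F₀ c₀ ξ₀) b))

/-- lower bound of the level, compactness (`full`: with observables) -/
structure Cmp (P : Pa X L) (τ : ℝ → Pt M ι (κ ⊕ κ) r n) (e : ℝ) (full : Prop) : Prop where
  bdd : ∀ (α : Type) (l : Filter α) (t : α → ℝ) (t₀ : ℝ) (q : α → WW X κ r n →₀ ℝ) (q₀ : _),
    Tendsto t l (𝓝 t₀) → St.Cv l q q₀ → ∃ C : ℝ, ∀ᶠ i in l, t i ∈ Icc (0 : ℝ) 1 →
      Bd (X.B L) (L.geo (P.F (t i))) (wq (X.B L) (P.F (t i)) (q i)) e → ∀ c : Cfg M ι (κ ⊕ κ) r,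
      c.Sol (X.B L) (L.geo (P.F (t i))) (pq X L (P.F (t i)) (τ (t i)) (q i)) →
      -C ≤ c.kap (X.B L) (L.geo (P.F (t i)))
  comp : ∀ (α : Type) (𝒰 : Ultrafilter α) (t : α → ℝ) (t₀ : ℝ) (q : α → WW X κ r n →₀ ℝ) (q₀ : _)
    (c : α → Cfg M ι (κ ⊕ κ) r) (k : ℝ), Tendsto t 𝒰 (𝓝 t₀) → St.Cv (𝒰 : Filter α) q q₀ →
    (∀ᶠ i in (𝒰 : Filter α), t i ∈ Icc (0 : ℝ) 1 ∧
      Bd (X.B L) (L.geo (P.F (t i))) (wq (X.B L) (P.F (t i)) (q i)) e ∧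
      (c i).Sol (X.B L) (L.geo (P.F (t i))) (pq X L (P.F (t i)) (τ (t i)) (q i)) ∧
      (c i).kap (X.B L) (L.geo (P.F (t i))) = k) →
    ∃ (c₀ : Cfg M ι (κ ⊕ κ) r) (l : ℕ),
      c₀.Sol (X.B L) (L.geo (P.F t₀)) (pq X L (P.F t₀) (τ t₀) q₀) ∧
      c₀.kap (X.B L) (L.geo (P.F t₀)) = k - l ∧
      (l = 0 → SLim (X.B L) (𝒰 : Filter α) (fun i => L.geo (P.F (t i))) c c₀) ∧
      (full → Out X (𝒰 : Filter α) (fun i => P.F (t i)) (P.F t₀) c c₀)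

/-- Banach models over the path and over its points -/
structure Mds (P : Pa X L) (τ : ℝ → Pt M ι (κ ⊕ κ) r n) : Prop where
  path : ∀ (p : ℝ → WW X κ r n →₀ ℝ) (β : ℝ → ℝ) (k : ℝ) (d : ℤ), SmP p → ContDiff ℝ ∞ β →
    (d : ℝ) = 6 * k + X.d0 L + 2 * r - 2 * n - 1 → Nonempty (Mdl (X.B L) (fun t => L.geo (P.F t))
      X.F (fun t => pq X L (P.F t) (τ t) (p t)) β k d)
  pt : ∀ (t : ℝ) (q : WW X κ r n →₀ ℝ) (k : ℝ) (d : ℤ),
    (d : ℝ) = 6 * k + X.d0 L + 2 * r - 2 * n - 2 → Nonempty (Mdl (T := Fin 0 → ℝ) (X.B L)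
      (fun _ => L.geo (P.F t)) X.F (fun _ => pq X L (P.F t) (τ t) q) (fun _ => 1) k d)

/-- the perturbation `∑ wₖ (t) Tₖ` along the path -/
abbrev Ed.pa (D : Ed M) (P : Pa X L) (w : ℝ → Fin D.N → ℝ) (r n : ℕ) (t : ℝ) :
    Pt M ι (κ ⊕ κ) r n := D.pt (X.B L) (P.F t) (w t) r n

/-- smooth data -/
def Ed.OK (D : Ed M) (F : Fr I M ι) : Prop := ∀ k, (D.tm Unit 0 0 k).OK F

/-- the zero perturbation -/
def pt0 {lam : Type} [Fintype lam] : Pt M ι lam r n := ⟨fun _ => 0, fun _ => 0, fun _ => 0⟩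

/-- the abelian equations with the two-form `η` -/
structure SWs {lam : Type} [Fintype lam] (B : Base M ι lam) (G : Geo I M ι lam) (η : M → ι × ι → ℝ)
    (c : Cfg M ι lam 0) (ξ : M → c.m.A) : Prop where
  adm : c.Adm B G
  spt : SPt G.F c ξ
  D : ∀ x, Wz78.dir I G.F.e c.m.ρ c.W c.Φ x = 0
  C : ∀ x, c.m.p2 B x (c.m.Fg G.F c.W x) - c.m.mu B x (c.Φ x) (c.Φ x) =
    c.m.p2 B x (WithLp.toLp 2 fun s => η x s • ξ x)

/-- regularity of the abelian equations -/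
def TRig {lam : Type} [Fintype lam] (B : Base M ι lam) (G : Geo I M ι lam) (c : Cfg M ι lam 0)
    (ξ : M → c.m.A) : Prop :=
  ∀ (a : ι → M → ℝ) (φ : M → c.m.V), (∀ b, Sm I (a b)) → (∀ b x, ∑ k, B.P b k x * a k x = a b x) →
    Sm I φ → (∀ x, c.m.pp B x (φ x) = φ x) → (∀ x, opL (ξ x) (φ x) = c.m.J (φ x)) →
    (∀ x, HasDerivAt (vD G (pt0 (n := 0)) c (fun y => WithLp.toLp 2 fun b => a b y • ξ y) φ 0 x) 0 0) →
    (∀ x s, HasDerivAt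
      (vC B G (pt0 (n := 0)) c (fun y => WithLp.toLp 2 fun b => a b y • ξ y) φ 0 x s) 0 0) →
    ∃ g : M → ℝ, Sm I g ∧ (∀ b x, a b x = -G.F.D b g x) ∧ ∀ x, φ x = g x • c.m.J (c.Φ x)

/-- the components of a two-form -/
def cmp (F : Fr I M ι) (η : M → Ext E) (x : M) (s : ι × ι) : ℝ := Num57.k2 F η s.1 s.2 x

/-- a Taubes datum of the form `w` with canonical class `K` -/
structure Tb (X : Bk I M ι) (L : Ln E M κ) (w : M → Ext E) (K : H2 I M) where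
  F : Fr I M ι
  η : M → Ext E
  x : Cfg M ι (κ ⊕ κ) 0
  ξ : M → x.m.A
  pos : X.Pos F
  sm : η ∈ Num57.Om I M 2
  sw : SWs (X.B L) (L.geo F) (cmp F η) x ξ
  ne : ∀ y, x.Φ y ≠ 0
  can : lab F x ξ + lcl I L = K
  deg : ∀ c ζ, SWs (X.B L) (L.geo F) (cmp F η) c ζ →
    0 < X.Q (cl2 I w) (lab F c ζ - lab F x ξ) ∨ (Cfg.Iso (X.B L) F c x ∧ lab F c ζ = lab F x ξ)
  reg : TRig (X.B L) (L.geo F) x ξ

/-- canonical classes -/
structure Can (X : Bk I M ι) (K : (M → Ext E) → H2 I M) (s : ℝ) : Prop where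
  eq : ∀ w w', X.Sy w w' → K w = K w'
  neg : ∀ w, X.Sy w w → K (-w) = -K w
  sq : ∀ w, X.Sy w w → X.Q (K w) (K w) = s
  tb : ∀ w, X.Sy w w → ∀ (κ : Type) [Fintype κ] [DecidableEq κ] (L : Ln E M κ), L.On I univ →
    Nonempty (Tb X L w (K w))

/-- weight two scalars with smooth coefficients -/
abbrev SG (X : Bk I M ι) (κ : Type) [Fintype κ] : Type := {g : Sg M (κ ⊕ κ) // g.OK X.F}

/-- the cuts `sg (g i) = ε z i` and the terms `ε θ` -/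
def link {j : ℕ} (g : Fin n → SG X κ) (θ : WW X κ (j + 1 + n) n →₀ ℝ) (ε : ℝ) :
    WW X κ (j + 1 + n) n →₀ ℝ :=
  ∑ i, Finsupp.single ⟨.cut i 1 (g i).1, (g i).2, trivial⟩ 1 + ε • (θ -
    ∑ i : Fin n, Finsupp.single ⟨.cz i 1 (Fin.natAdd (j + 1) i), trivial, trivial⟩ 1)

/-- the local structure of the link at the point `x` of type S; `τ r n` is one formula -/
def TopAt (X : Bk I M ι) (L : Ln E M κ) (F : Fr I M ι) (τ : ∀ r n, Pt M ι (κ ⊕ κ) r n)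
    (x : Cfg M ι (κ ⊕ κ) 0) (j : ℕ) : Prop :=
  ∃ J : Finset (SG X κ),
    (∀ (α : Type) (l : Filter α) (c : α → Cfg M ι (κ ⊕ κ) 0),
      (∀ᶠ i in l, (c i).Sol (X.B L) (L.geo F) (τ 0 0) ∧ ∀ g ∈ J, (c i).sg F g.1 = 0) →
      SLim (X.B L) l (fun _ => L.geo F) c x → ∀ᶠ i in l, Cfg.Iso (X.B L) F (c i) x) ∧
    ∀ (n : ℕ) (g : Fin n → SG X κ), (∀ g' ∈ J, g' ∈ range g) →
      ∃ (θ : WW X κ (j + 1 + n) n →₀ ℝ) (y : ℝ → Cfg M ι (κ ⊕ κ) (j + 1 + n)),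
        (∀ᶠ ε in 𝓝[>] 0, (y ε).Sol (X.B L) (L.geo F) (pq X L F (τ _ _) (link g θ ε)) ∧
          (y ε).kap (X.B L) (L.geo F) = x.kap (X.B L) (L.geo F)) ∧
        (∀ o : Ob X.F, Tendsto (fun ε => ob F (y ε) o) (𝓝[>] 0) (𝓝 (ob F x o))) ∧
        ∀ (l : Filter ℝ) (c : ℝ → Cfg M ι (κ ⊕ κ) (j + 1 + n)) (z : _), l ≤ 𝓝[>] 0 →
          (∀ᶠ ε in l, (c ε).Sol (X.B L) (L.geo F) (pq X L F (τ _ _) (link g θ ε))) →
          SLim (X.B L) l (fun _ => L.geo F) c (wz x z) → ∀ᶠ ε in l, Cfg.Iso (X.B L) F (c ε) (y ε) ∧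
            Rig (X.B L) (L.geo F) (pq X L F (τ _ _) (link g θ ε)) (c ε)

/-! ### the leaves -/

variable (X : Bk I M ι) (L : Ln E M κ)

/-- LEAF (73, 86, 74): compactness for the families of `adn` terms -/
def CmpL : Prop := ∀ (P : Pa X L) (D : Ed M) (w : ℝ → Fin D.N → ℝ), D.OK X.F → ContDiff ℝ ∞ w →
  ∀ r n, ∃ e > (0 : ℝ), Cmp P (D.pa P w r n) e True

/-- LEAF (82 from 61, 62, 71, 76, 77, 81, 99): Banach models -/
def MdsL : Prop := ∀ (P : Pa X L) (D : Ed M) (w : ℝ → Fin D.N → ℝ), D.OK X.F → ContDiff ℝ ∞ w →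
  ∀ r n, 0 < r → Mds P (D.pa P w r n)

/-- LEAF (86): sizes of the generic terms -/
def SzL : Prop := ∀ (P : Pa X L) (r n : ℕ) (T : WW X κ r n), ∃ C : ℝ, ∀ t ∈ Icc (0 : ℝ) 1,
  Bd (X.B L) (L.geo (P.F t)) (wq (X.B L) (P.F t) (Finsupp.single T 1)) C

/-- LEAF (86): an a priori bound that does not depend on the words of the `adn` terms -/
def AprL : Prop := ∀ F, X.Pos F → ∀ (N : ℕ) (f g h : Fin N → M → ℝ) (φ : ℝ → ℝ) (C k : ℝ),
  ∃ R : ℝ, ∀ (l : List (AW M)) (w : Fin N → ℝ), Ed.OK ⟨N, f, g, h, φ, l⟩ X.F → (∀ i, |w i| ≤ C) →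
    ∀ c : Cfg M ι (κ ⊕ κ) 0, c.Sol (X.B L) (L.geo F) (Ed.pt ⟨N, f, g, h, φ, l⟩ (X.B L) F w 0 0) →
      c.kap (X.B L) (L.geo F) ≤ k → ∫ x, ‖c.m.Fg F c.W x‖ ^ 2 ∂F.μ ≤ R

/-- LEAF (74): a word which is almost `ξ` on the class `a` -/
def NrmL : Prop := ∀ F, X.Pos F → ∀ a : H2 I M, a ≠ 0 → ∀ R : ℝ, ∃ l : List (AW M),
  (∀ ζ ∈ l, AW.OK X.F ζ) ∧ ∀ (c : Cfg M ι (κ ⊕ κ) 0) (ξ : M → c.m.A), c.Adm (X.B L) (L.geo F) →
    SPt F c ξ → lab F c ξ = a → ∫ x, ‖c.m.Fg F c.W x‖ ^ 2 ∂F.μ ≤ R →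
    ∃ u : M → ℝ, ∀ x, 1 / 2 ≤ u x ∧ u x ≤ 3 / 2 ∧ c.aws F l x = u x • ξ x

/-- LEAF (74): the observables determine the label -/
def SepL : Prop := ∀ F, X.Pos F → ∀ (c c' : Cfg M ι (κ ⊕ κ) 0) (ξ : M → c.m.A) (ξ' : M → c'.m.A),
  c.Adm (X.B L) (L.geo F) → c'.Adm (X.B L) (L.geo F) → SPt F c ξ → SPt F c' ξ' → c.Φ ≠ 0 →
  (∀ o : Ob X.F, ob F c o = ob F c' o) → lab F c ξ = lab F c' ξ'

/-- LEAF (99, 74): labels are integral -/
def IntL : Prop := ∀ F, X.Pos F → ∀ (c : Cfg M ι (κ ⊕ κ) 0) (ξ : M → c.m.A),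
  c.Adm (X.B L) (L.geo F) → SPt F c ξ → ∀ b ∈ Lat I M, ∃ m : ℤ, X.Q (lab F c ξ) b = m

/-- LEAF (71): invariance of the observables -/
def ObnL : Prop := ∀ F, X.Pos F → ∀ (r : ℕ) (c c' : Cfg M ι (κ ⊕ κ) r), c.Adm (X.B L) (L.geo F) →
  c'.Adm (X.B L) (L.geo F) → Cfg.Iso (X.B L) F c c' → ∀ o : Ob X.F, ob F c o = ob F c' o

/-- LEAF (93, 98, 55): paths of frames -/
def PathL : Prop := ∀ F, X.Pos F → ∃ P : Pa X L, P.F 0 = X.F ∧ ∀ t, 1 / 2 ≤ t → P.F t = F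

/-- LEAF (68): the top level -/
def TopL : Prop := ∀ (w : M → Ext E) (K : H2 I M) (T : Tb X L w K),
  (∃ j : ℤ, 6 * T.x.kap (X.B L) (L.geo T.F) + X.d0 L = 2 * j) ∧
  ∀ (D : Ed M) (v : Fin D.N → ℝ) (u : M → ℝ) (j : ℕ), D.OK X.F → D.Nm →
    T.x.Sol (X.B L) (L.geo T.F) (D.pt (X.B L) T.F v 0 0) →
    (∀ x, 1 / 2 ≤ u x ∧ u x ≤ 3 / 2 ∧ T.x.aws T.F D.L x = u x • T.ξ x) →
    6 * T.x.kap (X.B L) (L.geo T.F) + X.d0 L + 2 * j = 0 →
    TopAt X L T.F (D.pt (X.B L) T.F v) T.x j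

/-- the leaves that depend on the line -/
structure LeafL : Prop where
  cmp : CmpL X L
  mds : MdsL X L
  sz : SzL X L
  apr : AprL X L
  nrm : NrmL X L
  sep : SepL X L
  int : IntL X L
  obn : ObnL X L
  path : PathL X L
  top : TopL X L

/-- LEAF (86, 88): the unperturbed Seiberg-Witten equations, a bound independent of the line -/
def SwbL : Prop := ∃ C : ℝ, ∀ (κ : Type) [Fintype κ] [DecidableEq κ] (L : Ln E M κ), L.On I univ →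
  ∀ c ξ, SWs (X.B L) (L.geo X.F) (cmp X.F ((-1 / 2 : ℝ) • L.F I)) c ξ →
    X.Q (lab X.F c ξ + lcl I L) (lab X.F c ξ + lcl I L) ≤ C

/-- LEAF (88): Taubes data -/
def TaubL : Prop := ∃ K s, Can X K s

/-- all leaves -/
structure Leaf : Prop where
  ln : ∀ (κ : Type) [Fintype κ] [DecidableEq κ] (L : Ln E M κ), L.On I univ → LeafL X L
  swb : SwbL X
  taub : TaubL X

/-! ### the statement -/

/-- an admissible datum: the straight path from `τ` to zero has a theory -/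
structure Dat (τ : Pt M ι (κ ⊕ κ) r n) (k : ℝ) : Prop where
  th : ∃ P : Pa X L, (∀ t, P.F t = X.F) ∧ Mds P (fun t => sml (1 - t) τ) ∧
    ∃ e > (0 : ℝ), Cmp P (fun t => sml (1 - t) τ) e False
  noI : ∀ t ∈ Icc (0 : ℝ) 1, NoI (X.B L) (L.geo X.F) (sml t τ) k
  good : Good (X.B L) (L.geo X.F) τ k fun _ => True

/-- the counts of the line `L` below the level of the class `K₀` -/
def Cnt (K₀ : H2 I M) : Prop :=
  ∀ (r n : ℕ) (k : ℝ) (τ : Pt M ι (κ ⊕ κ) r n), n < r → 6 * k + X.d0 L + 2 * r - 2 * n - 2 = 0 →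
    k ≤ -X.Q (K₀ - lcl I L) (K₀ - lcl I L) / 4 → Dat X L τ k →
    (Odd (cntU (X.B L) (L.geo X.F) τ k fun _ => True) ↔
      k = -X.Q (K₀ - lcl I L) (K₀ - lcl I L) / 4)

/-- **NV**: `φ` is a closed form of square zero, the classes `b q` detect its line -/
def NV : Prop := ∃ (K : (M → Ext E) → H2 I M) (s : ℝ),
  (∀ w w', X.Sy w w' → K w = K w') ∧ (∀ w, X.Sy w w → X.Q (K w) (K w) = s) ∧
  (∀ w, X.Sy w w → ∀ (κ : Type) [Fintype κ] [DecidableEq κ] (L : Ln E M κ), L.On I univ →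
    ∃ j : ℤ, -6 * X.Q (K w - lcl I L) (K w - lcl I L) / 4 + X.d0 L = 2 * j) ∧
  ∃ ρ₀ : ℝ, ∀ φ : M → Ext E, Cl I 2 univ φ → φ * φ = 0 →
    (∀ (κ : Type) [Fintype κ] [DecidableEq κ] (L : Ln E M κ), L.On I univ → ∀ w, X.Sy w w →
      cl2 I w = lcl I L → (∀ x, 0 ≤ Int54.rat (Num57.vol X.F X.o) (w * φ) x) →
      X.Q (K w) (cl2 I φ) ≤ 0) ∧
    ∀ (m : ℕ) (b : Fin m → H2 I M), (∀ q, b q ∈ Lat I M) →
      (∀ e, (∀ q, X.Q (b q) e = 0) → ∃ a : ℝ, e = a • cl2 I φ) →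
      ∀ (κ : Type) [Fintype κ] [DecidableEq κ] (L : Ln E M κ), L.On I univ →
      ∀ (w : M → Ext E) (ρ : ℝ), ρ₀ ≤ ρ → X.Sy w w → cl2 I w = lcl I L →
        (∀ x, 0 ≤ Int54.rat (Num57.vol X.F X.o) (w * φ) x) → 0 < X.Q (lcl I L) (cl2 I φ) →
        (∀ q, ∃ w', X.Sy w w' ∧ cl2 I w' = lcl I L + ρ • b q) →
        (∀ q, ∃ w', X.Sy w w' ∧ cl2 I w' = lcl I L - ρ • b q) →
        0 < X.Q (K w - lcl I L) (K w - lcl I L) → Cnt X L (K w)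

/-- the statement proved in `Eq82/Main` -/
def MainStmt : Prop := ∀ [ConnectedSpace M], 2 ≤ Num57.bp X.ok.ori → Leaf X → NV X

end Crest.Agent.X212.Eq82
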