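import Crest.Agent.X212.Num57.Hop
import Crest.Agent.X212.Met55.Mix
import Mathlib.Geometry.Manifold.WhitneyEmbedding

/-!
# Row 212, AN5: every smooth two-tensor is a finite sum `∑ f dg ⊗ dh`
-/

set_option autoImplicit false
set_option linter.unusedSectionVars false
noncomputable section
open scoped Manifold ContDiff Topology
open Set Function Matrix

namespace Crest.Agent.X212.Eq82
open An

variable {E : Type} [NormedAddCommGroup E] [NormedSpace ℝ E] [FiniteDimensional ℝ E]
  [MeasurableSpace E] [BorelSpace E]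
  {HM : Type} [TopologicalSpace HM] {I : ModelWithCorners ℝ E HM} [I.Boundaryless]
  {M : Type} [TopologicalSpace M] [ChartedSpace HM M] [IsManifold I ∞ M]
  [MeasurableSpace M] [T2Space M] [CompactSpace M] {ι : Type} [Fintype ι]

/-- the coframe is a combination of differentials of global functions -/
theorem exists_cof (F : Fr I M ι) : ∃ (N : ℕ) (c : ι → Fin N → M → ℝ) (g : Fin N → M → ℝ),
    (∀ a i, Sm I (c a i)) ∧ (∀ i, Sm I (g i)) ∧
      ∀ a b x, ∑ i, c a i x * F.D b (g i) x = F.P a b x := by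
  classical
  obtain ⟨N, e, h1, -, h2⟩ := exists_embedding_euclidean_of_compact (I := I) (M := M)
  let g : Fin N → M → ℝ := fun i x => e x i
  have hg : ∀ i, Sm I (g i) := fun i => (EuclideanSpace.proj i : _ →L[ℝ] ℝ).contMDiff.comp h1
  have hD : ∀ b i x, F.D b (g i) x = F.D b e x i := fun b i x =>
    Sob92.dv_clm (EuclideanSpace.proj i : _ →L[ℝ] ℝ) (h1.mdifferentiableAt (by simp))
  let A : M → Matrix ι (Fin N) ℝ := fun x => Matrix.of fun b i => F.D b (g i) x
  let P : M → Matrix ι ι ℝ := fun x => Matrix.of fun a b => F.P a b x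
  let G : M → Matrix ι ι ℝ := fun x => A x * (A x)ᵀ + (1 - P x)
  have PA : ∀ x, P x * A x = A x := fun x => by
    ext b i; exact Num57.P_D F (g i) b x
  have Pt : ∀ x, (P x)ᵀ = P x := fun x => by ext a b; exact F.P_symm b a x
  have PP : ∀ x, P x * P x = P x := fun x => by ext a b; exact ((Wz78.frm F).pr x).idem a b
  have AP : ∀ x, (A x)ᵀ * P x = (A x)ᵀ := fun x => by
    rw [← Pt x, ← transpose_mul, PA]
  have GP : ∀ x, G x * (1 - P x) = 1 - P x := fun x => by
    simp only [G, Matrix.add_mul, Matrix.mul_sub, Matrix.sub_mul, Matrix.mul_one, Matrix.one_mul,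
      Matrix.mul_assoc, AP, PP]
    abel
  have hdet : ∀ x, (G x).det ≠ 0 := fun x h0 => by
    obtain ⟨v, hv, hz⟩ := Matrix.exists_mulVec_eq_zero_iff.2 h0
    have k1 : v ⬝ᵥ (G x *ᵥ v) = ((A x)ᵀ *ᵥ v) ⬝ᵥ ((A x)ᵀ *ᵥ v) +
        ((1 - P x) *ᵥ v) ⬝ᵥ ((1 - P x) *ᵥ v) := by
      have e1 : (1 - P x) = (1 - P x)ᵀ * (1 - P x) := by
        rw [transpose_sub, transpose_one, Pt]
        simp only [Matrix.mul_sub, Matrix.sub_mul, Matrix.mul_one, Matrix.one_mul, PP]
        abel
      simp only [G, add_mulVec, dotProduct_add]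
      congr 1
      · rw [← mulVec_mulVec, dotProduct_mulVec, ← mulVec_transpose]
      · conv_lhs => rw [e1, ← mulVec_mulVec, dotProduct_mulVec, ← mulVec_transpose,
          transpose_transpose]
    rw [hz, dotProduct_zero] at k1
    have n1 : 0 ≤ ((A x)ᵀ *ᵥ v) ⬝ᵥ ((A x)ᵀ *ᵥ v) := Finset.sum_nonneg fun _ _ => mul_self_nonneg _
    have n2 : 0 ≤ ((1 - P x) *ᵥ v) ⬝ᵥ ((1 - P x) *ᵥ v) :=
      Finset.sum_nonneg fun _ _ => mul_self_nonneg _
    have z1 : (A x)ᵀ *ᵥ v = 0 := dotProduct_self_eq_zero.1 (by linarith)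
    have z2 : (1 - P x) *ᵥ v = 0 := dotProduct_self_eq_zero.1 (by linarith)
    have z3 : ∑ b, v b • F.e b x = 0 := h2 x (by
      rw [map_zero, map_sum]
      simp only [map_smul]
      show ∑ b, v b • F.D b e x = (0 : EuclideanSpace ℝ (Fin N))
      ext i
      have := congrFun z1 i
      simp only [A, mulVec, dotProduct, transpose_apply, of_apply, hD, Pi.zero_apply] at this
      refine Eq.trans ?_ this
      refine (map_sum (EuclideanSpace.proj i : EuclideanSpace ℝ (Fin N) →L[ℝ] ℝ) _ _).trans ?_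
      exact Finset.sum_congr rfl fun b _ => mul_comm _ _)
    refine hv (funext fun a => ?_)
    have := congrFun z2 a
    rw [sub_mulVec, one_mulVec, Pi.sub_apply, Pi.zero_apply, sub_eq_zero] at this
    exact this.trans (F.P_ker x v z3 a)
  have sA : ∀ x, Pj41.MSm I A x := fun x b i => F.sm_D (hg i) b x
  have sP : ∀ x, Pj41.MSm I P x := fun x a b => F.P_sm a b x
  refine ⟨N, fun a i x => (P x * (G x)⁻¹ * A x) a i, g, fun a i x => ((sP x).mul
    ((((sA x).mul (sA x).transpose).add ((Pj41.MSm.const 1).sub (sP x))).inv (hdet x))).mul (sA x)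
    a i, hg, fun a b x => ?_⟩
  have hu : (G x)⁻¹ * G x = 1 := nonsing_inv_mul _ (Ne.isUnit (hdet x))
  have k : (G x)⁻¹ * (1 - P x) = 1 - P x := by
    conv_lhs => rw [← GP x, ← Matrix.mul_assoc, hu, Matrix.one_mul]
  have : P x * (G x)⁻¹ * A x * (A x)ᵀ = P x := by
    rw [Matrix.mul_assoc, show A x * (A x)ᵀ = G x - (1 - P x) from (add_sub_cancel_right _ _).symm,
      Matrix.mul_assoc, Matrix.mul_sub, hu, k, sub_sub_cancel, PP]
  exact congrFun (congrFun this a) b

/-- **REP** -/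
theorem exists_rep (F : Fr I M ι) {η : ι → ι → M → ℝ} (hs : ∀ a b, Sm I (η a b))
    (h1 : ∀ a b x, ∑ k, F.P a k x * η k b x = η a b x)
    (h2 : ∀ a b x, ∑ k, F.P b k x * η a k x = η a b x) :
    ∃ (N : ℕ) (f g h : Fin N → M → ℝ), (∀ k, Sm I (f k) ∧ Sm I (g k) ∧ Sm I (h k)) ∧
      ∀ a b x, ∑ k, f k x * F.D a (g k) x * F.D b (h k) x = η a b x := by
  obtain ⟨N, c, g, hc, hg, h⟩ := exists_cof F
  let e := (finProdFinEquiv (m := N) (n := N)).symm
  refine ⟨N * N, fun k x => ∑ a, ∑ b, η a b x * c a (e k).1 x * c b (e k).2 x, fun k => g (e k).1,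
    fun k => g (e k).2, fun k => ⟨contMDiff_finsetSum fun a _ => contMDiff_finsetSum fun b _ =>
      ((hs a b).mul (hc _ _)).mul (hc _ _), hg _, hg _⟩, fun a b x => ?_⟩
  rw [e.sum_comp fun s => (∑ a, ∑ b, η a b x * c a s.1 x * c b s.2 x) * F.D a (g s.1) x *
    F.D b (g s.2) x, Fintype.sum_prod_type, ← h1]
  simp only [Finset.sum_mul]
  rw [Finset.sum_congr rfl fun i _ => Finset.sum_comm, Finset.sum_comm]
  refine Finset.sum_congr rfl fun a' _ => ?_
  rw [← h2, F.P_symm a, ← h a' a, Finset.mul_sum, Finset.sum_congr rfl fun i _ => Finset.sum_comm,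
    Finset.sum_comm]
  refine Finset.sum_congr rfl fun b' _ => ?_
  rw [F.P_symm b, ← h b' b]
  simp only [Finset.sum_mul, Finset.mul_sum]
  rw [Finset.sum_comm]
  exact Finset.sum_congr rfl fun i _ => Finset.sum_congr rfl fun j _ => by ring

end Crest.Agent.X212.Eq82
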