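import Crest.Agent.X212.Eq82.Leaf
import Crest.Agent.X212.Eqv71.Cfg

/-!
# Row 212, AN5: algebra of perturbations, sizes, limits with varying level
-/

set_option autoImplicit false
set_option linter.unusedSectionVars false
noncomputable section
open scoped Manifold ContDiff Topology InnerProductSpace
open MeasureTheory Set Function Filter

namespace Crest.Agent.X212.Eq82
open An Mod61 Abel74 Crest.Agent.R208.F
open Line51 (Ln)
open Dr59 (HR Cl)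

variable {E : Type} [NormedAddCommGroup E] [NormedSpace ℝ E] [FiniteDimensional ℝ E]
  [MeasurableSpace E] [BorelSpace E]
  {HM : Type} [TopologicalSpace HM] {I : ModelWithCorners ℝ E HM} [I.Boundaryless]
  {M : Type} [TopologicalSpace M] [ChartedSpace HM M] [IsManifold I ∞ M]
  [MeasurableSpace M] [BorelSpace M] [SecondCountableTopology M] [T2Space M] [CompactSpace M]
  {ι : Type} [Fintype ι] [DecidableEq ι] {κ : Type} [Fintype κ] [DecidableEq κ] {r n : ℕ}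

section alg
variable {lam : Type} [Fintype lam] {B : Base M ι lam} {G : Geo I M ι lam} {F F₀ : Fr I M ι}
  {τ σ ρ : Pt M ι lam r n} {c c' c'' : Cfg M ι lam r} {e e' : ℝ}

theorem pt_ext (h1 : ∀ c x, τ.D c x = σ.D c x) (h2 : ∀ c x, τ.C c x = σ.C c x)
    (h3 : ∀ c i, τ.S c i = σ.S c i) : τ = σ := by
  cases τ; cases σ
  congr 1 <;> funext c x
  exacts [h1 c x, h2 c x, h3 c x]

theorem add_assoc' : (τ.add σ).add ρ = τ.add (σ.add ρ) :=
  pt_ext (fun _ _ => add_assoc _ _ _) (fun _ _ => add_assoc _ _ _) fun _ _ => add_assoc _ _ _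

theorem add_pt0 : τ.add pt0 = τ :=
  pt_ext (fun _ _ => add_zero _) (fun _ _ => add_zero _) fun _ _ => add_zero _

theorem pt0_add : Pt.add pt0 τ = τ :=
  pt_ext (fun _ _ => zero_add _) (fun _ _ => zero_add _) fun _ _ => zero_add _

theorem sml_one : sml 1 τ = τ :=
  pt_ext (fun _ _ => one_smul _ _) (fun _ _ => one_smul _ _) fun _ _ => by simp [sml]

theorem sml_zero : sml 0 τ = pt0 :=
  pt_ext (fun _ _ => zero_smul _ _) (fun _ _ => zero_smul _ _) fun _ _ => by simp [sml, pt0]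

theorem wq_zero : wq B F (0 : Wt lam r n F₀ →₀ ℝ) = pt0 :=
  pt_ext (fun _ _ => by simp [wq, pt0]) (fun _ _ => by simp [wq, pt0]) fun _ _ => by simp [wq, pt0]

theorem wq_add (q q' : Wt lam r n F₀ →₀ ℝ) : wq B F (q + q') = (wq B F q).add (wq B F q') := by
  refine pt_ext (fun c x => ?_) (fun c x => ?_) fun c x => ?_ <;>
    simp only [wq, Pt.add] <;> rw [Finsupp.sum_add_index' (by simp) (by simp [add_smul, add_mul])]

theorem wq_smul (a : ℝ) (q : Wt lam r n F₀ →₀ ℝ) : wq B F (a • q) = sml a (wq B F q) := by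
  refine pt_ext (fun c x => ?_) (fun c x => ?_) fun c x => ?_ <;>
    simp only [wq, sml] <;> rw [Finsupp.sum_smul_index' (by simp)] <;>
    simp only [Finsupp.sum, Finset.smul_sum, Finset.mul_sum, smul_smul, smul_eq_mul,
      Complex.ofReal_mul, mul_assoc]

theorem Bd.mono (h : Bd B G τ e) (he : e ≤ e') : Bd B G τ e' := fun c h1 h2 s hs x =>
  (h c h1 h2 s hs x).trans (mul_le_mul_of_nonneg_right he ((sq_nonneg _).trans (hs x)))

theorem Bd.add (h : Bd B G τ e) (h' : Bd B G σ e') : Bd B G (τ.add σ) (e + e') :=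
  fun c h1 h2 s hs x => (norm_add_le _ _).trans
    ((add_le_add (h c h1 h2 s hs x) (h' c h1 h2 s hs x)).trans_eq (add_mul _ _ _).symm)

theorem Bd.sml (h : Bd B G τ e) (a : ℝ) : Bd B G (sml a τ) (|a| * e) := fun c h1 h2 s hs x =>
  (norm_smul a _).trans_le ((mul_le_mul_of_nonneg_left (h c h1 h2 s hs x) (abs_nonneg a)).trans_eq
    (mul_assoc _ _ _).symm)

theorem bd_pt0 : Bd B G (pt0 : Pt M ι lam r n) 0 := fun _ _ _ _ _ _ => by simp [pt0]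

theorem adm0 (h : c.Adm B G) : Adm0 c B G := ⟨h.ok, h.conn, h.sm, h.pos⟩

theorem z_le (h : c.Adm B G) : ‖c.z‖ ≤ 1 := by
  rcases h.z with rfl | h
  · rw [Subsingleton.elim c.z 0, norm_zero]; exact zero_le_one
  · exact h.le

theorem Bd.zero (h : Bd B G τ e) (hc : c.Adm B G) (h0 : c.Φ = 0) (x : M) : τ.C c x = 0 :=
  norm_le_zero_iff.1 (by simpa using h c (adm0 hc) (z_le hc) 0 (fun y => by simp [h0]) x)

theorem NoI.ne {k : ℝ} (h : NoI B G τ k) (hb : Bd B G σ e) (hc : c.Sol B G (τ.add σ)) {l : ℕ}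
    (hk : c.kap B G = k - l) : c.Φ ≠ 0 := fun h0 => h c l hc.toAdm hk h0 fun x => by
  have := hc.C x
  simpa only [Cfg.eC, Pt.add, hb.zero hc.toAdm h0 x, add_zero] using this

variable (hB : B.OK I) (hG : G.OK B)
include hB hG

theorem iso_refl (h : c.Adm B G) : Cfg.Iso B G.F c c :=
  Eqv71.isoOn_refl hB hG isOpen_univ (Eqv71.ad0 h)

theorem iso_symm (h : c.Adm B G) (h' : c'.Adm B G) (e : Cfg.Iso B G.F c c') : Cfg.Iso B G.F c' c :=
  Eqv71.IsoOn.symm hB hG isOpen_univ (Eqv71.ad0 h) (Eqv71.ad0 h') e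

theorem iso_trans (h : c.Adm B G) (h' : c'.Adm B G) (h'' : c''.Adm B G) (e : Cfg.Iso B G.F c c')
    (e' : Cfg.Iso B G.F c' c'') : Cfg.Iso B G.F c c'' :=
  Eqv71.IsoOn.trans hB hG isOpen_univ (Eqv71.ad0 h) (Eqv71.ad0 h') (Eqv71.ad0 h'') e e'

theorem iso_kap (h : c.Adm B G) (h' : c'.Adm B G) (e : Cfg.Iso B G.F c c') :
    c'.kap B G = c.kap B G :=
  let ⟨_, _, e⟩ := e
  Eqv71.kap_eq (Eqv71.kg_refl hB hG isOpen_univ)
    ((Eqv71.lg_refl hB hG isOpen_univ).of_ceq (Eqv71.ad0 h) (Eqv71.ad0 h') e)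

theorem iso_norm (h : c.Adm B G) (h' : c'.Adm B G) (e : Cfg.Iso B G.F c c') (x : M) :
    ‖c'.Φ x‖ = ‖c.Φ x‖ := by
  obtain ⟨_, _, e⟩ := e
  exact Eqv71.ceq_norm (φ := id) (Eqv71.lg_refl hB hG isOpen_univ) (Eqv71.ad0 h) (Eqv71.ad0 h') e
    (mem_univ x)

end alg

/-! ### paths of finite combinations -/

section path
variable {W : Type} {α : Type} {l : Filter α}

/-- continuous paths of finite combinations -/
def CP (p : ℝ → W →₀ ℝ) : Prop :=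
  (∃ J : Finset W, ∀ t, (p t).support ⊆ J) ∧ ∀ w, Continuous fun t => p t w

theorem SmP.cp {p : ℝ → W →₀ ℝ} (h : SmP p) : CP p := ⟨h.1, fun w => (h.2 w).continuous⟩

theorem smP_lin (q q' : W →₀ ℝ) {γ : ℝ → ℝ} (hγ : ContDiff ℝ ∞ γ) : SmP fun t => q + γ t • q' := by
  classical
  exact ⟨⟨q.support ∪ q'.support, fun t => Finsupp.support_add.trans
    (Finset.union_subset_union_right Finsupp.support_smul)⟩,
    fun w => contDiff_const.add (hγ.mul contDiff_const)⟩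

theorem smP_const (q : W →₀ ℝ) : SmP fun _ : ℝ => q := ⟨⟨_, fun _ => subset_rfl⟩, fun _ => contDiff_const⟩

theorem cv_path {p : ℝ → W →₀ ℝ} (hp : CP p) {γ : ℝ → ℝ} (hγ : Continuous γ) {t : α → ℝ} {t₀ : ℝ}
    (ht : Tendsto t l (𝓝 t₀)) {q : α → W →₀ ℝ} {q₀ : W →₀ ℝ} (hq : St.Cv l q q₀) :
    St.Cv l (fun i => p (t i) + γ (t i) • q i) (p t₀ + γ t₀ • q₀) := by
  classical
  obtain ⟨⟨J, hJ⟩, hc⟩ := hp
  obtain ⟨J', h1, h2⟩ := hq
  refine ⟨J ∪ J' ∪ q₀.support, fun i w hw => ?_, fun w =>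
    (((hc w).tendsto _).comp ht).add (((hγ.tendsto _).comp ht).mul (h2 w))⟩
  simp only [Finset.mem_union, not_or, Finsupp.notMem_support_iff] at hw
  have k : ∀ s, p s w = 0 := fun s => Finsupp.notMem_support_iff.1 fun h => hw.1.1 (hJ s h)
  simp [k, h1 i w hw.1.2, hw.2]

theorem cv_smul {a : α → ℝ} (ha : Tendsto a l (𝓝 0)) (q : W →₀ ℝ) :
    St.Cv l (fun i => a i • q) 0 :=
  ⟨q.support, fun i w hw => by simp [Finsupp.notMem_support_iff.1 hw], fun w => by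
    simpa using ha.mul_const (q w)⟩

theorem cv_mono {l' : Filter α} (h : l' ≤ l) {q : α → W →₀ ℝ} {q₀ : W →₀ ℝ} (hq : St.Cv l q q₀) :
    St.Cv l' q q₀ := hq.imp fun _ k => ⟨k.1, fun w => (k.2 w).mono_left h⟩

theorem exists_lim {𝒰 : Ultrafilter α} {t : α → ℝ}
    (h : ∀ᶠ i in (𝒰 : Filter α), t i ∈ Icc (0 : ℝ) 1) : ∃ t₀ ∈ Icc (0 : ℝ) 1, Tendsto t 𝒰 (𝓝 t₀) :=
  isCompact_Icc.ultrafilter_le_nhds (𝒰.map t) (le_principal_iff.2 h)

theorem ev_const {β : Type} {𝒰 : Ultrafilter α} {f : α → β} {s : Set β} (hs : s.Finite)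
    (h : ∀ᶠ i in (𝒰 : Filter α), f i ∈ s) : ∃ b, ∀ᶠ i in (𝒰 : Filter α), f i = b := by
  obtain ⟨b, -, e⟩ := (𝒰.map f).eq_pure_of_finite_mem hs h
  have : {b} ∈ 𝒰.map f := by rw [e]; exact singleton_mem_pure
  exact ⟨b, this⟩

theorem ev_of_ult {p : α → Prop} (h : ∀ 𝒰 : Ultrafilter α, 𝒰 ≤ l → ¬∀ᶠ i in (𝒰 : Filter α), ¬p i) :
    ∀ᶠ i in l, p i := by
  by_contra hn
  have := (frequently_iff_neBot.1 (not_eventually.1 hn))
  exact h (Ultrafilter.of (l ⊓ 𝓟 {i | ¬p i})) ((Ultrafilter.of_le _).trans inf_le_left)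
    (le_principal_iff.1 ((Ultrafilter.of_le _).trans inf_le_right))

end path

variable {X : Bk I M ι} {L : Ln E M κ}

/-- parameter and observables -/
abbrev Yo (X : Bk I M ι) : Type := ℝ × (Ob X.F → ℝ)

namespace Pa
variable (P : Pa X L)

include P in
theorem hB : (X.B L).OK I := P.B ▸ P.ok.B

theorem hG (t : ℝ) : (L.geo (P.F t)).OK (X.B L) := by
  rw [← P.G, ← P.B]; exact P.ok.G t (P.Q ▸ mem_univ t)

/-- solutions over `t` of level `k - l` -/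
def Sl (τ : ℝ → Pt M ι (κ ⊕ κ) r n) (k : ℝ) (q : WW X κ r n →₀ ℝ) (t : ℝ) (l : ℕ)
    (c : Cfg M ι (κ ⊕ κ) r) : Prop :=
  c.Sol (X.B L) (L.geo (P.F t)) (pq X L (P.F t) (τ t) q) ∧ c.kap (X.B L) (L.geo (P.F t)) = k - l

/-- size over `t` -/
abbrev bd (q : WW X κ r n →₀ ℝ) (t e : ℝ) : Prop :=
  Bd (X.B L) (L.geo (P.F t)) (wq (X.B L) (P.F t) q) e

/-- parameter and observables -/
def yo (t : ℝ) (c : Cfg M ι (κ ⊕ κ) r) : Yo X := (t, ob (P.F t) c)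

/-- small paths -/
def Ad (e : ℝ) (p : ℝ → WW X κ r n →₀ ℝ) : Prop := ∃ e' < e, ∀ t ∈ Icc (0 : ℝ) 1, P.bd (p t) t e'

/-- no solution in `S` -/
def Av (τ : ℝ → Pt M ι (κ ⊕ κ) r n) (k : ℝ) (S : ℕ → Set (Yo X)) (p : ℝ → WW X κ r n →₀ ℝ) : Prop :=
  ∀ t ∈ Icc (0 : ℝ) 1, ∀ l c, P.Sl τ k (p t) t l c → P.yo t c ∉ S l

variable {P}

theorem Ad.bd {e : ℝ} {p : ℝ → WW X κ r n →₀ ℝ} (h : P.Ad e p) {t : ℝ} (ht : t ∈ Icc (0 : ℝ) 1) :
    P.bd (p t) t e := let ⟨_, h1, h2⟩ := h; (h2 t ht).mono h1.le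

theorem Ad.mono {e e' : ℝ} {p : ℝ → WW X κ r n →₀ ℝ} (h : P.Ad e p) (he : e ≤ e') : P.Ad e' p :=
  h.imp fun _ k => ⟨k.1.trans_le he, k.2⟩

theorem bd_zero (t : ℝ) : P.bd (0 : WW X κ r n →₀ ℝ) t 0 := by
  rw [bd, wq_zero]; exact bd_pt0

theorem bd_fin (h : SzL X L) (P : Pa X L) (J : Finset (WW X κ r n)) : ∃ C ≥ (0 : ℝ),
    ∀ (q : WW X κ r n →₀ ℝ) (δ : ℝ), q.support ⊆ J → 0 ≤ δ → (∀ w, |q w| ≤ δ) →
      ∀ t ∈ Icc (0 : ℝ) 1, P.bd q t (C * δ) := by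
  classical
  choose C hC using h P r n
  refine ⟨∑ w ∈ J, |C w|, Finset.sum_nonneg fun _ _ => abs_nonneg _, fun q δ h1 h2 h3 t ht => ?_⟩
  have key : ∀ S : Finset (WW X κ r n),
      P.bd (∑ w ∈ S, q w • Finsupp.single w (1 : ℝ)) t ((∑ w ∈ S, |C w|) * δ) := fun S => by
    induction S using Finset.induction_on with
    | empty => simpa using bd_zero t
    | insert w S hw ih =>
      rw [Finset.sum_insert hw, Finset.sum_insert hw, bd, wq_add, wq_smul, add_mul]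
      refine ((((hC w t ht).mono (le_abs_self _)).sml _).mono ?_).add ih
      rw [mul_comm]
      exact mul_le_mul_of_nonneg_left (h3 w) (abs_nonneg _)
  convert key J
  ext w
  simp only [Finsupp.smul_single, smul_eq_mul, mul_one, Finsupp.finsetSum_apply,
    Finsupp.single_apply, Finset.sum_ite_eq']
  split_ifs with hw
  · rfl
  · exact Finsupp.notMem_support_iff.1 fun k => hw (h1 k)

theorem bd_ev (h : SzL X L) (P : Pa X L) {α : Type} {l : Filter α} {q : α → WW X κ r n →₀ ℝ}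
    {q₀ : WW X κ r n →₀ ℝ} (hq : St.Cv l q q₀) {δ : ℝ} (hδ : 0 < δ) :
    ∀ᶠ i in l, ∀ t ∈ Icc (0 : ℝ) 1, P.bd (q i - q₀) t δ := by
  obtain ⟨J, h1, h2⟩ := hq
  obtain ⟨C, h0, hC⟩ := bd_fin h P J
  have hp : 0 < δ / (C + 1) := by positivity
  have : ∀ᶠ i in l, ∀ w ∈ J, |q i w - q₀ w| ≤ δ / (C + 1) := (eventually_all_finset J).2 fun w _ =>
    ((h2 w).eventually (Metric.closedBall_mem_nhds _ hp)).mono fun i hi => by
      rwa [Real.dist_eq] at hi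
  filter_upwards [this] with i hi t ht
  refine (hC _ _ (fun w hw => by_contra fun k => ?_) hp.le (fun w => ?_) t ht).mono ?_
  · exact Finsupp.mem_support_iff.1 hw (sub_eq_zero.2 (h1 i w k))
  · by_cases k : w ∈ J
    · exact hi w k
    · rw [Finsupp.sub_apply, h1 i w k, sub_self, abs_zero]; exact hp.le
  · rw [mul_div_assoc', div_le_iff₀ (by positivity)]; nlinarith

theorem ad_op (h : SzL X L) (P : Pa X L) (e : ℝ) (p : ℝ → WW X κ r n →₀ ℝ) {γ : ℝ → ℝ}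
    (hγ : ∀ t ∈ Icc (0 : ℝ) 1, |γ t| ≤ 1) : St.IsOp fun q => P.Ad e fun t => p t + γ t • q := by
  rintro q₀ ⟨e', h1, h2⟩ α l q hq
  filter_upwards [bd_ev h P hq (half_pos (sub_pos.2 h1))] with i hi
  refine ⟨e' + (e - e') / 2, by linarith, fun t ht => ?_⟩
  beta_reduce
  rw [show p t + γ t • q i = p t + γ t • q₀ + γ t • (q i - q₀) by rw [smul_sub]; abel, bd, wq_add,
    wq_smul]
  refine (h2 t ht).add (((hi t ht).sml _).mono ?_)
  exact mul_le_of_le_one_left (by linarith) (hγ t ht)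

end Pa

variable {P : Pa X L} {τ : ℝ → Pt M ι (κ ⊕ κ) r n} {e k : ℝ} {full : Prop}

theorem Cmp.mono (h : Cmp P τ e full) {e' : ℝ} (he : e' ≤ e) : Cmp P τ e' full where
  bdd α l t t₀ q q₀ h1 h2 := (h.bdd α l t t₀ q q₀ h1 h2).imp fun _ k =>
    k.mono fun _ hi h3 h4 => hi h3 (h4.mono he)
  comp α 𝒰 t t₀ q q₀ c k h1 h2 h3 := h.comp α 𝒰 t t₀ q q₀ c k h1 h2
    (h3.mono fun _ hi => ⟨hi.1, hi.2.1.mono he, hi.2.2⟩)

/-- compactness with varying level -/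
theorem Cmp.ult (h : Cmp P τ e full) {α : Type} {𝒰 : Ultrafilter α} {t : α → ℝ} {t₀ : ℝ}
    {q : α → WW X κ r n →₀ ℝ} {q₀ : WW X κ r n →₀ ℝ} {c : α → Cfg M ι (κ ⊕ κ) r} {v : α → ℕ}
    (ht : Tendsto t 𝒰 (𝓝 t₀)) (hq : St.Cv (𝒰 : Filter α) q q₀)
    (hc : ∀ᶠ i in (𝒰 : Filter α), t i ∈ Icc (0 : ℝ) 1 ∧ P.bd (q i) (t i) e ∧
      P.Sl τ k (q i) (t i) (v i) (c i)) :
    ∃ (c₀ : Cfg M ι (κ ⊕ κ) r) (l l' : ℕ), (∀ᶠ i in (𝒰 : Filter α), v i = l) ∧ l ≤ l' ∧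
      P.Sl τ k q₀ t₀ l' c₀ ∧
      (l' = l → SLim (X.B L) (𝒰 : Filter α) (fun i => L.geo (P.F (t i))) c c₀) ∧
      (full → Out X (𝒰 : Filter α) (fun i => P.F (t i)) (P.F t₀) c c₀) := by
  obtain ⟨C, hC⟩ := h.bdd α 𝒰 t t₀ q q₀ ht hq
  obtain ⟨l, hl⟩ := ev_const (𝒰 := 𝒰) (f := v) (finite_le_nat ⌈k + C⌉₊) (by
    filter_upwards [hC, hc] with i h1 h2
    have := h1 h2.1 h2.2.1 _ h2.2.2.1
    rw [h2.2.2.2] at this
    exact Nat.cast_le.1 (le_trans (by linarith) (Nat.le_ceil (k + C))))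
  obtain ⟨c₀, l', h1, h2, h3, h4⟩ := h.comp α 𝒰 t t₀ q q₀ c (k - l) ht hq (by
    filter_upwards [hl, hc] with i h1 h2
    exact ⟨h2.1, h2.2.1, h2.2.2.1, h1 ▸ h2.2.2.2⟩)
  exact ⟨c₀, l, l + l', hl, le_self_add, ⟨h1, by rw [h2]; push_cast; ring⟩,
    fun e => h3 (by omega), h4⟩

theorem Out.yo {α : Type} {l : Filter α} {t : α → ℝ} {t₀ : ℝ} {c : α → Cfg M ι (κ ⊕ κ) r}
    {c₀ : Cfg M ι (κ ⊕ κ) r} (h : Out X l (fun i => P.F (t i)) (P.F t₀) c c₀)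
    (ht : Tendsto t l (𝓝 t₀)) : Tendsto (fun i => P.yo (t i) (c i)) l (𝓝 (P.yo t₀ c₀)) :=
  ht.prodMk_nhds (tendsto_pi_nhds.2 h.ob)

/-- avoiding closed sets is an open condition -/
theorem Cmp.av_op (h : Cmp P τ e full) (hz : SzL X L) {p : ℝ → WW X κ r n →₀ ℝ} (hp : CP p)
    {γ : ℝ → ℝ} (hγ : Continuous γ) (hγ' : ∀ t ∈ Icc (0 : ℝ) 1, |γ t| ≤ 1) {S : ℕ → Set (Yo X)}
    (h1 : ∀ l, IsClosed (S l)) (h2 : Monotone S) (h3 : full ∨ ∀ l, ∀ y ∈ S l, ∀ y', y' ∈ S l) :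
    St.IsOp fun q => P.Ad e (fun t => p t + γ t • q) ∧ P.Av τ k S fun t => p t + γ t • q := by
  rintro q₀ ⟨ha, hv⟩ α l q hq
  have hA := Pa.ad_op hz P e p hγ' q₀ ha α l q hq
  refine hA.and (ev_of_ult fun 𝒰 hU hn => ?_)
  simp only [Pa.Av, not_forall, not_not] at hn
  obtain ⟨t, hn⟩ := hn.choice
  have hn2 : ∀ᶠ i in (𝒰 : Filter α), ∃ vc : ℕ × Cfg M ι (κ ⊕ κ) r, t i ∈ Icc (0 : ℝ) 1 ∧
      P.Sl τ k (p (t i) + γ (t i) • q i) (t i) vc.1 vc.2 ∧ P.yo (t i) vc.2 ∈ S vc.1 :=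
    hn.mono fun i ⟨a, l, c, b, d⟩ => ⟨(l, c), a, b, d⟩
  have : Nonempty (ℕ × Cfg M ι (κ ⊕ κ) r) := let ⟨_, a, _⟩ := hn2.exists; ⟨a⟩
  obtain ⟨u, hu⟩ := hn2.choice
  obtain ⟨t₀, a1, a2⟩ := exists_lim (hu.mono fun _ hi => hi.1)
  obtain ⟨c₀, l, l', b1, b2, b3, -, b4⟩ := h.ult (k := k) (v := fun i => (u i).1)
    (c := fun i => (u i).2) a2 (cv_path hp hγ a2 (cv_mono hU hq))
    ((hu.and (hA.filter_mono hU)).mono fun i hi => ⟨hi.1.1, hi.2.bd hi.1.1, hi.1.2.1⟩)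
  have b5 : ∀ᶠ i in (𝒰 : Filter α), P.yo (t i) (u i).2 ∈ S l :=
    (hu.and b1).mono fun i hi => hi.2 ▸ hi.1.2.2
  refine hv t₀ a1 l' c₀ b3 (h2 b2 ?_)
  rcases h3 with h3 | h3
  · exact (h1 l).mem_of_tendsto ((b4 h3).yo a2) b5
  · exact let ⟨_, hi⟩ := b5.exists; h3 l _ hi _

/-- finitely many levels -/
theorem Cmp.exists_lev (h : Cmp P τ e full) {p : ℝ → WW X κ r n →₀ ℝ} (hp : CP p) (ha : P.Ad e p)
    (k : ℝ) : ∃ N : ℕ, P.Av τ k (fun l => {_y | N < l}) p := by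
  by_contra hn
  simp only [Pa.Av, not_exists, not_forall, not_not] at hn
  choose t ht v c h1 h2 using hn
  obtain ⟨t₀, -, a2⟩ := exists_lim (𝒰 := hyperfilter ℕ) (.of_forall ht)
  obtain ⟨-, l, -, b1, -⟩ := h.ult (k := k) (v := v) (c := c) a2
    (by simpa using cv_path hp (continuous_const (y := 0)) a2 (St.cv_const _ 0))
    (.of_forall fun i => ⟨ht i, ha.bd (ht i), h1 i⟩)
  have b2 : ∀ᶠ i in (hyperfilter ℕ : Filter ℕ), l ≤ i :=
    (Nat.cofinite_eq_atTop ▸ hyperfilter_le_cofinite) (eventually_ge_atTop l)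
  obtain ⟨i, e1, e2⟩ := (b1.and b2).exists
  have : i < v i := h2 i
  omega

end Crest.Agent.X212.Eq82
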