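import Crest.Agent.X212.Eq82.Box
import Crest.Agent.X212.Abel74.Lab
import Crest.Agent.X212.Eqv71.Wpt

/-!
# Row 212, AN5: invariance of observables and of regularity
-/

set_option autoImplicit false
set_option linter.unusedSectionVars false
noncomputable section
open scoped Manifold ContDiff Topology InnerProductSpace
open MeasureTheory Set Function Filter

namespace Crest.Agent.X212.Eq82
open An Mod61 Abel74 Crest.Agent.R208.F
open Line51 (Ln)
open Dr59 (HR Cl)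

variable {E : Type} [NormedAddCommGroup E] [NormedSpace ℝ E] [FiniteDimensional ℝ E]
  [MeasurableSpace E] [BorelSpace E]
  {HM : Type} [TopologicalSpace HM] {I : ModelWithCorners ℝ E HM} [I.Boundaryless]
  {M : Type} [TopologicalSpace M] [ChartedSpace HM M] [IsManifold I ∞ M]
  [MeasurableSpace M] [BorelSpace M] [SecondCountableTopology M] [T2Space M] [CompactSpace M]
  {ι : Type} [Fintype ι] [DecidableEq ι] {κ : Type} [Fintype κ] [DecidableEq κ] {r n : ℕ}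

section ok
variable {lam : Type} [Fintype lam] {F : Fr I M ι} (F' : Fr I M ι)

theorem cb_fr {N : Type} [NormedAddCommGroup N] [NormedSpace ℝ N] {f : M → N} (h : F.Cb f) :
    F'.Cb f := Sob92.Cb_of_compact h.choose_spec.1

theorem sw_fr {w : SW M} (h : w.OK F) : w.OK F' := fun t ht => by
  have := h t ht
  cases t
  exacts [cb_fr F' this, cd_of_sm F' this.1, trivial, trivial]

theorem la_fr {l : List (La M)} (h : ∀ t ∈ l, La.OK F t) : ∀ t ∈ l, La.OK F' t := fun t ht => by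
  have := h t ht
  cases t
  exacts [cb_fr F' this, trivial]

theorem aw_fr {ξ : AW M} (h : ξ.OK F) : ξ.OK F' := by
  refine ⟨?_, la_fr F' h.2⟩
  have := h.1
  revert this
  cases ξ.s
  exacts [fun h => ⟨sw_fr F' h.1, sw_fr F' h.2⟩,
    fun h => ⟨cb_fr F' h.1, cd_of_sm F' h.2.1.1, cd_of_sm F' h.2.2.1⟩]

theorem sg_fr {g : Sg M lam} (h : g.OK F) : g.OK F' :=
  ⟨h.1, h.2.1, sw_fr F' h.2.2.1, sw_fr F' h.2.2.2⟩

theorem co_fr {d : Co M lam r} (h : d.OK F) : d.OK F' := by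
  cases d
  exacts [trivial, ⟨sg_fr F' h.1, fun g hg => sg_fr F' (h.2 g hg)⟩]

/-- on a closed manifold smoothness of the coefficients does not depend on the frame -/
theorem tm_fr {T : Tm M lam r n} (h : T.OK F) : T.OK F' := by
  cases T
  exacts [sw_fr F' h, ⟨co_fr F' h.1, cb_fr F' h.2.1, sw_fr F' h.2.2⟩,
    ⟨cd_of_sm F' h.1.1, cd_of_sm F' h.2.1.1, aw_fr F' h.2.2⟩,
    ⟨co_fr F' h.1, cb_fr F' h.2.1, cd_of_sm F' h.2.2.1.1, cd_of_sm F' h.2.2.2.1.1,
      sw_fr F' h.2.2.2.2.1, sw_fr F' h.2.2.2.2.2.1, la_fr F' h.2.2.2.2.2.2⟩,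
    ⟨cb_fr F' h.1, cd_of_sm F' h.2.1.1, cd_of_sm F' h.2.2.1.1, h.2.2.2.1, h.2.2.2.2.1,
      fun ξ hξ => aw_fr F' (h.2.2.2.2.2 ξ hξ)⟩, sg_fr F' h, trivial]

end ok

variable {X : Bk I M ι} {L : Ln E M κ}

/-- **LEAF `ObnL`** -/
theorem obnL (X : Bk I M ι) (hL : L.On I univ) : ObnL X L := by
  rintro F hF r c c' a a' ⟨u, ζ, e⟩ o
  have hB := B_ok X hL
  have hG := G_ok hL hF
  have g := Eqv71.kc_refl hB hG isClopen_univ Mp86.bumps_of_compact
  have k := Eqv71.cr_univ (Eqv71.ad0 a) (Eqv71.ad0 a') e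
  cases o with
  | none => simp only [ob, iso_norm hB hG a a' ⟨u, ζ, e⟩]
  | some o =>
    refine congrArg (integral F.μ) (funext fun x => ?_)
    have h1 := k.aw g (Eqv71.awR_refl _ o.1.1) (aw_fr F o.1.2) (aw_fr F o.1.2)
    have h2 := k.aw g (Eqv71.awR_refl _ o.2.1) (aw_fr F o.2.2) (aw_fr F o.2.2)
    have e1 : c'.aw F o.1.1 x = _ := h1.rel x trivial
    have e2 : c'.aw F o.2.1 x = _ := h2.rel x trivial
    rw [e1, e2, Eqv71.inner_cj, Eqv71.cj_cj, ((k.lz g).me x trivial).uu, h2.p x trivial]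
    rfl

/-- regularity is invariant under isomorphisms -/
theorem rig_iso {P : Pa X L} {τ : ℝ → Pt M ι (κ ⊕ κ) r n} (hm : Mds P τ) {t k : ℝ}
    (hk : 6 * k + X.d0 L + 2 * r - 2 * n - 2 = 0) {q : WW X κ r n →₀ ℝ}
    {c c' : Cfg M ι (κ ⊕ κ) r} (h : P.Sl τ k q t 0 c) (h' : P.Sl τ k q t 0 c') (h0 : c.Φ ≠ 0)
    (e : Cfg.Iso (X.B L) (P.F t) c c')
    (hr : Rig (X.B L) (L.geo (P.F t)) (pq X L (P.F t) (τ t) q) c') :
    Rig (X.B L) (L.geo (P.F t)) (pq X L (P.F t) (τ t) q) c := by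
  obtain ⟨m⟩ := hm.pt t q k 0 (by rw [hk, Int.cast_zero])
  have h0' : c'.Φ ≠ 0 := fun e' => h0 (funext fun x => norm_eq_zero.1 (by
    rw [← iso_norm P.hB (P.hG t) h.1.toAdm h'.1.toAdm e, e']; exact norm_zero))
  have p : (pq X L (P.F t) (τ t) q).add (wq (X.B L) (L.geo (P.F t)).F
      ((1 : ℝ) • (0 : WW X κ r n →₀ ℝ))) = pq X L (P.F t) (τ t) q := by
    rw [pq_add, smul_zero, add_zero]
  obtain ⟨x, a1, -, rfl⟩ := m.surj 0 0 c (by rw [p]; exact h.1) (by simpa using h.2) h0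
  obtain ⟨y, b1, -, rfl⟩ := m.surj 0 0 c' (by rw [p]; exact h'.1) (by simpa using h'.2) h0'
  have a2 : m.Q.Reg 0 x := m.ax.reg_eqv (m.eqv' 0 x y a1 b1 (Subsingleton.elim _ _) e) a1.1
    (surj_of_surj_prod ((m.rig (by simp) 0 y b1).2 (by rw [p]; exact hr)))
  have := (m.rig (by simp) 0 x a1).1 fun y => by
    obtain ⟨u, hu⟩ := a2 y.1
    exact ⟨u, Prod.ext hu (funext fun i => i.elim0)⟩
  rwa [p] at this

end Crest.Agent.X212.Eq82
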