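import Crest.Agent.X212.Eq82.Path
import Crest.Agent.X212.Mod61.Fmt
import Crest.Agent.X212.Cmp73.MB
import Crest.Agent.X212.Abel74.Defs
import Crest.Agent.X212.Line51.An
import Crest.Agent.X212.Num57.Qf
import Crest.Agent.X212.Num57.Cof

/-!
# Row 212, AN5: definitions and leaves (closed connected four-manifold)
-/

set_option autoImplicit false
set_option linter.unusedSectionVars false
noncomputable section
open scoped Manifold ContDiff Topology InnerProductSpace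
open MeasureTheory Set Function Filter

namespace Crest.Agent.X212.Eq82
open An Mod61 Abel74 Crest.Agent.R208.F

variable {E : Type} [NormedAddCommGroup E] [NormedSpace ℝ E] [FiniteDimensional ℝ E]
  [MeasurableSpace E] [BorelSpace E]
  {HM : Type} [TopologicalSpace HM] {I : ModelWithCorners ℝ E HM}
  {M : Type} [TopologicalSpace M] [ChartedSpace HM M] [IsManifold I ∞ M]
  [MeasurableSpace M] {ι : Type} [Fintype ι] {lam : Type} [Fintype lam] {r n : ℕ}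

/-! ### perturbations -/

/-- terms whose curvature part vanishes for `Φ = 0` -/
def Vz : Tm M lam r n → Prop
  | .ad _ _ ξ => ∃ u v, ξ.s = .q u v
  | .adn _ _ _ _ _ => False
  | _ => True

variable (lam r n) in
/-- the generic terms -/
abbrev Wt (F₀ : Fr I M ι) : Type := {T : Tm M lam r n // T.OK F₀ ∧ Vz T}

/-- a finite combination of generic terms -/
def wq (B : Base M ι lam) (F : Fr I M ι) {F₀ : Fr I M ι} (q : Wt lam r n F₀ →₀ ℝ) :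
    Pt M ι lam r n where
  D c x := q.sum fun T a => a • c.tD B F T.1 x
  C c x := q.sum fun T a => a • c.tC B F T.1 x
  S c i := q.sum fun T a => (a : ℂ) * c.tS F T.1 i

/-- real multiples -/
def sml (a : ℝ) (τ : Pt M ι lam r n) : Pt M ι lam r n where
  D c x := a • τ.D c x
  C c x := a • τ.C c x
  S c i := (a : ℂ) * τ.S c i

/-- the curvature part of `τ` is bounded by `e sup |Φ|²` -/
def Bd (B : Base M ι lam) (G : Geo I M ι lam) (τ : Pt M ι lam r n) (e : ℝ) : Prop :=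
  ∀ c : Cfg M ι lam r, Adm0 c B G → ‖c.z‖ ≤ 1 → ∀ σ : ℝ, (∀ x, ‖c.Φ x‖ ^ 2 ≤ σ) →
    ∀ x, ‖τ.C c x‖ ≤ e * σ

/-- smooth paths of finite combinations -/
def SmP {W T : Type} [NormedAddCommGroup T] [NormedSpace ℝ T] (p : T → W →₀ ℝ) : Prop :=
  (∃ J : Finset W, ∀ t, (p t).support ⊆ J) ∧ ∀ w, ContDiff ℝ ∞ fun t => p t w

variable (M) in
/-- data of the term `∑ wₖ fₖ (dgₖ ∧ dhₖ)⁺ ⊗ φ(|ξ|²) ξ` -/
structure Ed where
  N : ℕ
  f : Fin N → M → ℝ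
  g : Fin N → M → ℝ
  h : Fin N → M → ℝ
  φ : ℝ → ℝ
  L : List (AW M)

/-- its terms -/
def Ed.tm (D : Ed M) (lam : Type) (r n : ℕ) (k : Fin D.N) : Tm M lam r n :=
  .adn (D.f k) (D.g k) (D.h k) D.φ D.L

/-- the components of its two-form -/
def Ed.fm (D : Ed M) (F : Fr I M ι) (w : Fin D.N → ℝ) (x : M) (s : ι × ι) : ℝ :=
  ∑ k, w k * (D.f k x * F.D s.1 (D.g k) x * F.D s.2 (D.h k) x)

/-- `φ(|u ξ|²) u ξ = ξ` for `|ξ|² = 16` and `1/4 ≤ u ≤ 2` -/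
def Ed.Nm (D : Ed M) : Prop := ∀ u : ℝ, 1 / 4 ≤ u → u ≤ 2 → D.φ (16 * u ^ 2) * u = 1

/-- the perturbation -/
def Ed.pt (D : Ed M) (B : Base M ι lam) (F : Fr I M ι) (w : Fin D.N → ℝ) (r n : ℕ) :
    Pt M ι lam r n := wpt B F (D.tm lam r n) w

/-! ### regularity, counting, convergence -/

/-- variation of a configuration -/
def var (c : Cfg M ι lam r) (α : M → Fm ι c.m.A) (φ : M → c.m.V) (w : EuclideanSpace ℂ (Fin r))
    (s : ℝ) : Cfg M ι lam r :=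
  ⟨c.m, c.m.addC c.W fun x => s • α x, fun x => c.Φ x + s • φ x, c.z + s • w⟩

/-- the Dirac equation along a variation -/
def vD (G : Geo I M ι lam) (τ : Pt M ι lam r n) (c : Cfg M ι lam r) (α : M → Fm ι c.m.A)
    (φ : M → c.m.V) (w : EuclideanSpace ℂ (Fin r)) (x : M) (s : ℝ) : c.m.V :=
  (var c α φ w s).eD G τ x

/-- the curvature equation along a variation -/
def vC (B : Base M ι lam) (G : Geo I M ι lam) (τ : Pt M ι lam r n) (c : Cfg M ι lam r)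
    (α : M → Fm ι c.m.A) (φ : M → c.m.V) (w : EuclideanSpace ℂ (Fin r)) (x : M) (a : ι × ι)
    (s : ℝ) : c.m.A :=
  (var c α φ w s).eC B G τ x a

/-- the kernel of the linearisation consists of infinitesimal automorphisms -/
def Rig (B : Base M ι lam) (G : Geo I M ι lam) (τ : Pt M ι lam r n) (c : Cfg M ι lam r) : Prop :=
  ∀ (α : M → Fm ι c.m.A) (φ : M → c.m.V) (w : EuclideanSpace ℂ (Fin r)), Sm I α →
    (∀ x, c.m.p1 B x (α x) = α x) → Sm I φ → (∀ x, c.m.pp B x (φ x) = φ x) →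
    (⟪c.z, w⟫_ℂ).re = 0 →
    (∀ x, HasDerivAt (vD G τ c α φ w x) 0 0) → (∀ x a, HasDerivAt (vC B G τ c α φ w x a) 0 0) →
    (∀ i, HasDerivAt (fun s => τ.S (var c α φ w s) i) 0 0) →
    ∃ (ξ : M → c.m.A) (θ : ℝ), Sm I ξ ∧ (∀ x, ξ x ∈ c.m.gS x) ∧
      (∀ x a, α x a = -Wz78.nab I G.F.e (c.m.adW c.W) a ξ x) ∧
      (∀ x, φ x = opL (ξ x) (c.Φ x) + θ • c.m.J (c.Φ x)) ∧ w = ((2 * θ : ℝ) * Complex.I) • c.z

/-- a good datum in the box `U` -/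
structure Good (B : Base M ι lam) (G : Geo I M ι lam) (τ : Pt M ι lam r n) (k : ℝ)
    (U : Cfg M ι lam r → Prop) : Prop where
  rig : ∀ c, c.Sol B G τ → c.kap B G = k → U c → Rig B G τ c
  low : ∀ c (l : ℕ), 0 < l → c.Sol B G τ → c.kap B G = k - l → ¬U c

/-- the number of isomorphism classes of solutions of level `k` in the box `U` -/
def cntU (B : Base M ι lam) (G : Geo I M ι lam) (τ : Pt M ι lam r n) (k : ℝ)
    (U : Cfg M ι lam r → Prop) : ℕ :=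
  Nat.card (Quot fun x y : {c : Cfg M ι lam r // c.Sol B G τ ∧ c.kap B G = k ∧ U c} =>
    Cfg.Iso B G.F x.1 y.1)

/-- no solution of the curvature equation with `Φ = 0` at the levels `k - l` -/
def NoI (B : Base M ι lam) (G : Geo I M ι lam) (τ : Pt M ι lam r n) (k : ℝ) : Prop :=
  ∀ (c : Cfg M ι lam r) (l : ℕ), c.Adm B G → c.kap B G = k - l → c.Φ = 0 →
    ¬∀ x, c.eC B G τ x = 0

/-- forget `z` -/
def fz (c : Cfg M ι lam r) : Cfg M ι lam 0 := ⟨c.m, c.W, c.Φ, 0⟩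

/-- add `z` -/
def wz (c : Cfg M ι lam 0) (z : EuclideanSpace ℂ (Fin r)) : Cfg M ι lam r := ⟨c.m, c.W, c.Φ, z⟩

/-- names of observables -/
abbrev Ob (F₀ : Fr I M ι) : Type := Option ({ξ : AW M // ξ.OK F₀} × {ξ : AW M // ξ.OK F₀})

/-- observables -/
def ob {F₀ : Fr I M ι} (F : Fr I M ι) (c : Cfg M ι lam r) : Ob F₀ → ℝ
  | none => ∫ x, ‖c.Φ x‖ ^ 2 ∂F.μ
  | some o => ∫ x, ⟪c.aw F o.1.1 x, c.aw F o.2.1 x⟫_ℝ ∂F.μ

/-- smooth convergence up to isomorphism -/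
def SLim (B : Base M ι lam) {α : Type} (l : Filter α) (G : α → Geo I M ι lam)
    (c : α → Cfg M ι lam r) (c₀ : Cfg M ι lam r) : Prop :=
  ∃ (W : α → c₀.m.Cn) (Φ : α → M → c₀.m.V) (z : α → EuclideanSpace ℂ (Fin r)),
    (∀ᶠ i in l, Cfg.Adm ⟨c₀.m, W i, Φ i, z i⟩ B (G i) ∧
      Cfg.Iso B (G i).F (c i) ⟨c₀.m, W i, Φ i, z i⟩) ∧
    (∀ a, Cmp73.Cv I l univ (fun i => W i a) (c₀.W a)) ∧ Cmp73.Cv I l univ Φ c₀.Φ ∧
    Tendsto z l (𝓝 c₀.z)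

variable [T2Space M] [BorelSpace M]

/-- A Banach model for the solutions of level `κ` with `Φ ≠ 0` of the family `τ t + β t • q`. -/
structure Mdl {T : Type} [NormedAddCommGroup T] [NormedSpace ℝ T] (B : Base M ι lam)
    (G : T → Geo I M ι lam) (F₀ : Fr I M ι) (τ : T → Pt M ι lam r n) (β : T → ℝ) (κ : ℝ) (d : ℤ) :
    Type 1 where
  Q : Prob (Wt lam r n F₀)
  tc : ∀ o, Q.C o →L[ℝ] T
  cf : Q.X → Cfg M ι lam r
  ax : Q.Ax fun _ => True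
  hn : Q.n = d
  adm : ∀ x, Q.In x → (cf x).Adm B (G (tc _ (Q.pt x.2)))
  tc_g : ∀ o (g : Q.G o), ∀ v ∈ Q.U o, tc o (g • v) = tc o v
  tc_sj : ∀ o, Surjective (tc o)
  van : ∀ o w, ∀ v ∈ Q.U o, β (tc o v) = 0 → Q.τ o w v = 0
  sol : ∀ q x, Q.Sol q x ↔ (cf x).Sol B (G (tc _ (Q.pt x.2)))
    ((τ (tc _ (Q.pt x.2))).add (wq B (G (tc _ (Q.pt x.2))).F (β (tc _ (Q.pt x.2)) • q))) ∧
    (cf x).kap B (G (tc _ (Q.pt x.2))) = κ ∧ (cf x).Φ ≠ 0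
  eqv : ∀ x y, Q.In x → Q.eqv x y → tc _ (Q.pt x.2) = tc _ (Q.pt y.2) ∧
    Cfg.Iso B (G (tc _ (Q.pt x.2))).F (cf x) (cf y)
  eqv' : ∀ q x y, Q.Sol q x → Q.Sol q y → tc _ (Q.pt x.2) = tc _ (Q.pt y.2) →
    Cfg.Iso B (G (tc _ (Q.pt x.2))).F (cf x) (cf y) → Q.eqv x y
  surj : ∀ (q : Wt lam r n F₀ →₀ ℝ) t (c : Cfg M ι lam r),
    c.Sol B (G t) ((τ t).add (wq B (G t).F (β t • q))) → c.kap B (G t) = κ → c.Φ ≠ 0 →
    ∃ x, Q.Sol q x ∧ tc _ (Q.pt x.2) = t ∧ cf x = c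
  near : ∀ (α : Type) (l : Filter α) (u : α → Q.X) (x₀ : Q.X) (c₀ : Cfg M ι lam r),
    (∀ᶠ i in l, Q.In (u i)) → Q.In x₀ → c₀.Adm B (G (tc _ (Q.pt x₀.2))) →
    Cfg.Iso B (G (tc _ (Q.pt x₀.2))).F c₀ (cf x₀) →
    Tendsto (fun i => tc _ (Q.pt (u i).2)) l (𝓝 (tc _ (Q.pt x₀.2))) →
    SLim B l (fun i => G (tc _ (Q.pt (u i).2))) (fun i => cf (u i)) c₀ → Tendsto u l (Q.Near x₀)
  obs : ∀ (o : Ob F₀) (x₀ : Q.X), Q.In x₀ →
    Tendsto (fun x : Q.X => ob (G (tc _ (Q.pt x.2))).F (cf x) o) (Q.Near x₀ ⊓ 𝓟 {x | Q.In x})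
      (𝓝 (ob (G (tc _ (Q.pt x₀.2))).F (cf x₀) o))
  dens : ∀ q x, Q.Sol q x → β (tc _ (Q.pt x.2)) ≠ 0 → ∃ J, Q.Onto q x J
  rig : d = Module.finrank ℝ T → ∀ q x, Q.Sol q x →
    (Surjective ((fderiv ℝ (Q.F x.1 q) (Q.pt x.2)).prod (tc x.1)) ↔
      Rig B (G (tc _ (Q.pt x.2))) ((τ (tc _ (Q.pt x.2))).add
        (wq B (G (tc _ (Q.pt x.2))).F (β (tc _ (Q.pt x.2)) • q))) (cf x))

end Crest.Agent.X212.Eq82
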