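import Crest.Agent.X212.Eq82.Bas

/-!
# Row 212, AN5: invariance of the count in a box along a path, generic data
-/

set_option autoImplicit false
set_option linter.unusedSectionVars false
noncomputable section
open scoped Manifold ContDiff Topology InnerProductSpace
open MeasureTheory Set Function Filter

namespace Crest.Agent.X212.Eq82
open An Mod61 Abel74 Crest.Agent.R208.F
open Line51 (Ln)
open Dr59 (HR Cl)

variable {E : Type} [NormedAddCommGroup E] [NormedSpace ℝ E] [FiniteDimensional ℝ E]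
  [MeasurableSpace E] [BorelSpace E]
  {HM : Type} [TopologicalSpace HM] {I : ModelWithCorners ℝ E HM} [I.Boundaryless]
  {M : Type} [TopologicalSpace M] [ChartedSpace HM M] [IsManifold I ∞ M]
  [MeasurableSpace M] [BorelSpace M] [SecondCountableTopology M] [T2Space M] [CompactSpace M]
  {ι : Type} [Fintype ι] [DecidableEq ι] {κ : Type} [Fintype κ] [DecidableEq κ] {r n : ℕ}

section mdl
variable {lam : Type} [Fintype lam] {B : Base M ι lam} {F₀ : Fr I M ι}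

/-- isomorphism classes of solutions in a box -/
abbrev ClU (B : Base M ι lam) (G : Geo I M ι lam) (τ : Pt M ι lam r n) (k : ℝ)
    (U : Cfg M ι lam r → Prop) : Type :=
  Quot fun x y : {c : Cfg M ι lam r // c.Sol B G τ ∧ c.kap B G = k ∧ U c} =>
    Cfg.Iso B G.F x.1 y.1

theorem clU_exact {G : Geo I M ι lam} (hB : B.OK I) (hG : G.OK B) {τ : Pt M ι lam r n} {k : ℝ}
    {U : Cfg M ι lam r → Prop} {x y : {c : Cfg M ι lam r // c.Sol B G τ ∧ c.kap B G = k ∧ U c}}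
    (h : (Quot.mk _ x : ClU B G τ k U) = Quot.mk _ y) : Cfg.Iso B G.F x.1 y.1 :=
  (Equivalence.eqvGen_iff (r := fun x y : {c : Cfg M ι lam r // c.Sol B G τ ∧ c.kap B G = k ∧ U c} =>
    Cfg.Iso B G.F x.1 y.1) ⟨fun x => iso_refl hB hG x.2.1.toAdm,
      fun {x y} => iso_symm hB hG x.2.1.toAdm y.2.1.toAdm,
      fun {x y z} => iso_trans hB hG x.2.1.toAdm y.2.1.toAdm z.2.1.toAdm⟩).1 (Quot.eqvGen_exact h)

variable {T : Type} [NormedAddCommGroup T] [NormedSpace ℝ T] {G : T → Geo I M ι lam}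
  {τ : T → Pt M ι lam r n} {β : T → ℝ} {k : ℝ} {d : ℤ} (m : Mdl B G F₀ τ β k d)

/-- the parameter -/
abbrev Mdl.t (x : m.Q.X) : T := m.tc _ (m.Q.pt x.2)

theorem Mdl.t_near (x : m.Q.X) :
    Tendsto m.t (m.Q.Near x ⊓ 𝓟 {y | m.Q.In y}) (𝓝 (m.t x)) := fun N hN => by
  refine mem_map.2 (mem_inf_principal.2 (mem_of_superset
    (m.Q.tube_mem ((m.tc x.1).continuous.continuousAt.preimage_mem_nhds hN)) ?_))
  rintro y ⟨y', h1, h2⟩ hy
  show m.t y ∈ N
  rw [show m.t y = m.t ⟨x.1, y'⟩ from (m.eqv _ _ hy h2).1]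
  exact h1

/-- the classes of the model over one parameter -/
theorem Mdl.card (hB : B.OK I) {a : T} (hG : (G a).OK B) {σ : Pt M ι lam r n} {k' : ℝ}
    (hσ : (τ a).add (wq B (G a).F (β a • (0 : Wt lam r n F₀ →₀ ℝ))) = σ) (hk : k = k')
    {U : Cfg M ι lam r → Prop} {U' : m.Q.X → Prop} (h0 : ∀ x, m.t x = a → (U' x ↔ U (m.cf x)))
    (h2 : ∀ c, c.Sol B (G a) σ → c.kap B (G a) = k' → U c → c.Φ ≠ 0) :
    Nonempty ((res m.Q U').Cl {x | (res m.Q U').Sol 0 x ∧ m.t x = a} ≃ ClU B (G a) σ k' U) := by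
  subst hσ hk
  have key : ∀ x : {x | (res m.Q U').Sol 0 x ∧ m.t x = a},
      (m.cf x.1).Sol B (G a) ((τ a).add (wq B (G a).F (β a • (0 : Wt lam r n F₀ →₀ ℝ)))) ∧
        (m.cf x.1).kap B (G a) = k ∧ U (m.cf x.1) := by
    rintro ⟨x, hx, rfl⟩
    have := (m.sol 0 x).1 (res_sol.1 hx).1
    exact ⟨this.1, this.2.1, (h0 x rfl).1 (res_sol.1 hx).2⟩
  refine ⟨Equiv.ofBijective (Quot.map (fun x => ⟨m.cf x.1, key x⟩) ?_) ⟨?_, ?_⟩⟩
  · rintro ⟨x, hx, rfl⟩ y e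
    exact (m.eqv _ _ hx.1.1 e).2
  · rintro ⟨x, hx, rfl⟩ ⟨y, hy, e⟩ h
    exact Quot.sound (m.eqv' 0 _ _ (res_sol.1 hx).1 (res_sol.1 hy).1 e.symm (clU_exact hB hG h))
  · rintro ⟨c, a1, a2, a3⟩
    obtain ⟨x, b1, b2, rfl⟩ := m.surj 0 a c a1 a2 (h2 c a1 a2 a3)
    exact ⟨Quot.mk _ ⟨x, res_sol.2 ⟨b1, (h0 x b2).2 a3⟩, b2⟩, rfl⟩

end mdl

variable {X : Bk I M ι} {L : Ln E M κ} {P : Pa X L} {τ : ℝ → Pt M ι (κ ⊕ κ) r n} {e k : ℝ}
  {full : Prop}

theorem pq_add (F : Fr I M ι) (σ : Pt M ι (κ ⊕ κ) r n) (q q' : WW X κ r n →₀ ℝ) :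
    (pq X L F σ q).add (wq (X.B L) (L.geo F).F q') = pq X L F σ (q + q') :=
  add_assoc'.trans (congrArg _ (wq_add q q').symm)

theorem yo_iso (ho : ObnL X L) {t : ℝ} {c c' : Cfg M ι (κ ⊕ κ) r}
    (h : c.Adm (X.B L) (L.geo (P.F t))) (h' : c'.Adm (X.B L) (L.geo (P.F t)))
    (e : Cfg.Iso (X.B L) (P.F t) c c') : P.yo t c' = P.yo t c :=
  Prod.ext rfl (funext fun o => (ho _ (P.pos t) r c c' h h' e o).symm)

/-- **invariance of the count in a box** -/
theorem lst (hc : Cmp P τ e full) (hz : SzL X L) (ho : ObnL X L) (hm : Mds P τ)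
    {p : ℝ → WW X κ r n →₀ ℝ} (hp : SmP p) (hk : 6 * k + X.d0 L + 2 * r - 2 * n - 2 = 0)
    {V : Set (Yo X)} (hV : IsOpen V) (hf : full ∨ V = univ) (ha : P.Ad e p)
    (hb : P.Av τ k (fun _ => closure V \ V) p)
    (hΦ : ∀ t ∈ Icc (0 : ℝ) 1, ∀ q l c, P.bd q t e → P.Sl τ k q t l c → P.yo t c ∈ closure V →
      c.Φ ≠ 0)
    (hg : ∀ a, a = 0 ∨ a = 1 → Good (X.B L) (L.geo (P.F a)) (pq X L (P.F a) (τ a) (p a)) k
      fun c => P.yo a c ∈ V) :
    (∀ a, a = 0 ∨ a = 1 → Finite (ClU (X.B L) (L.geo (P.F a)) (pq X L (P.F a) (τ a) (p a)) k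
      fun c => P.yo a c ∈ V)) ∧
    Even (cntU (X.B L) (L.geo (P.F 0)) (pq X L (P.F 0) (τ 0) (p 0)) k (fun c => P.yo 0 c ∈ V) +
      cntU (X.B L) (L.geo (P.F 1)) (pq X L (P.F 1) (τ 1) (p 1)) k fun c => P.yo 1 c ∈ V) := by
  let β : ℝ → ℝ := fun t => t * (1 - t)
  have hβ : ContDiff ℝ ∞ β := contDiff_id.mul (contDiff_const.sub contDiff_id)
  have hβ' : ∀ t ∈ Icc (0 : ℝ) 1, |β t| ≤ 1 := fun t ht => by
    rw [abs_of_nonneg (mul_nonneg ht.1 (sub_nonneg.2 ht.2))]; nlinarith [ht.1, ht.2]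
  have hβ0 : ∀ a : ℝ, a = 0 ∨ a = 1 → β a = 0 := by rintro a (rfl | rfl) <;> simp [β]
  have hI : ∀ a : ℝ, a = 0 ∨ a = 1 → a ∈ Icc (0 : ℝ) 1 := by rintro a (rfl | rfl) <;> simp
  have m := fun l : ℕ => (hm.path p β (k - l) (1 - 6 * l) hp hβ (by push_cast; linarith)).some
  obtain ⟨N, hN⟩ := hc.exists_lev hp.cp ha k
  let S : ℕ → Set (Yo X) := fun l => (closure V \ V) ∪ {_y | N < l}
  let A : (WW X κ r n →₀ ℝ) → Prop := fun q =>
    P.Ad e (fun t => p t + β t • q) ∧ P.Av τ k S fun t => p t + β t • q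
  have hA : St.IsOp A := hc.av_op hz hp.cp hβ.continuous hβ'
    (fun l => (isClosed_closure.sdiff hV).union isClosed_const)
    (fun l l' h y hy => hy.imp id fun h' => lt_of_lt_of_le h' h)
    (hf.imp id fun h l y hy y' => hy.elim (fun h' => (h'.2 (h.ge (mem_univ y))).elim) Or.inr)
  have hs : ∀ l q x, (m l).Q.Sol q x ↔ P.Sl τ k (p ((m l).t x) + β ((m l).t x) • q) ((m l).t x) l
      ((m l).cf x) ∧ ((m l).cf x).Φ ≠ 0 := fun l q x => by
    rw [(m l).sol, pq_add, Pa.Sl, and_assoc]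
  let U : ∀ l, (m l).Q.X → Prop := fun l x => P.yo ((m l).t x) ((m l).cf x) ∈ V
  let R : Pth (WW X κ r n) := ⟨fun l => res (m l).Q (U l), fun l => (m l).tc⟩
  have hR : R.Ax A :=
    { ax := fun l => res_ax (m l).ax (fun _ _ => trivial) (fun x y e hx hU => by
          obtain ⟨e1, e2⟩ := (m l).eqv x y hx e
          have := (m l).adm y ((m l).ax.in_eqv x y e hx)
          show P.yo ((m l).tc _ ((m l).Q.pt y.2)) _ ∈ V
          rw [← e1] at this ⊢
          rwa [yo_iso ho ((m l).adm x hx) this e2])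
        fun q x _ hx hU => by
          have := (((m l).t_near x).prodMk_nhds (tendsto_pi_nhds.2 fun o =>
            (m l).obs o x hx.1)).eventually (hV.mem_nhds hU)
          exact (eventually_inf_principal.1 this).mono fun y hy h => hy h.1
      n0 := (m 0).hn.trans (by simp)
      nl := fun l hl => by
        show (m l).Q.n < 0
        rw [(m l).hn]; omega
      op := hA
      tc_g := (m 0).tc_g
      tc_e := fun x y hx e => ((m 0).eqv x y hx.1 e).1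
      tc_ne := fun x h => by
        obtain ⟨v, hv⟩ := (m 0).tc_sj x.1 1
        have : R.tc 0 x.1 v = 1 := hv
        rw [h] at this
        exact zero_ne_one this
      van := fun l o w v hv h => (m l).van o w v hv (hβ0 _ h)
      dens := fun l q _ x hx h1 h2 => (m l).dens q x (res_sol.1 hx.1).1
        (mul_pos h1 (sub_pos.2 h2)).ne'
      bdd := ⟨N, fun l q hq ⟨x, hx⟩ => not_lt.1 fun h =>
        hq.2 _ hx.2 l _ ((hs l q x).1 (res_sol.1 hx.1).1).1 (Or.inr h)⟩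
      comp := fun l q₀ h0 α 𝒰 q u hq hu => by
        obtain ⟨t₀, a1, a2⟩ := exists_lim (t := fun i => (m l).t (u i)) (hu.mono fun _ hi => hi.2.2)
        obtain ⟨c₀, l₁, l', b1, b2, b3, b4, b5⟩ := hc.ult (k := k) (v := fun _ => l)
          (c := fun i => (m l).cf (u i)) a2 (cv_path hp.cp hβ.continuous a2 hq)
          (hu.mono fun i hi => ⟨hi.2.2, hi.1.1.bd hi.2.2, ((hs l _ _).1 (res_sol.1 hi.2.1).1).1⟩)
        obtain rfl : l = l₁ := b1.exists.choose_spec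
        have c1 : P.yo t₀ c₀ ∈ closure V := hf.elim (fun h => mem_closure_of_tendsto
          ((b5 h).yo a2) (hu.mono fun i hi => (res_sol.1 hi.2.1).2)) fun h => by simp [h]
        have c2 : P.yo t₀ c₀ ∈ V := by_contra fun h => h0.2 t₀ a1 l' c₀ b3 (Or.inl ⟨c1, h⟩)
        obtain ⟨x, d1, d2, d3⟩ := (m l').surj q₀ t₀ c₀ (by rw [pq_add]; exact b3.1) b3.2
          (hΦ t₀ a1 _ l' c₀ (h0.1.bd a1) b3 c1)
        subst d2 d3
        have d4 : x ∈ R.K l' q₀ := ⟨res_sol.2 ⟨d1, c2⟩, a1⟩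
        rcases b2.eq_or_lt with rfl | h
        · exact Or.inl ⟨x, d4, (m l).near α 𝒰 u x _ (hu.mono fun i hi => hi.2.1.1.1) d1.1
            b3.1.toAdm (iso_refl P.hB (P.hG _) b3.1.toAdm) a2 (b4 rfl)⟩
        · exact Or.inr ⟨l', h, x, d4⟩ }
  have he : ∀ a, a = 0 ∨ a = 1 → ∀ q : WW X κ r n →₀ ℝ, p a + β a • q = p a := fun a h q => by
    rw [hβ0 a h, zero_smul, add_zero]
  obtain ⟨f0, f1, f2⟩ := hR.lstar ⟨by simpa using ha, by
      simp only [smul_zero, add_zero]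
      exact fun t ht l c h1 h2 => h2.elim (hb t ht l c h1) (hN t ht l c h1)⟩
    (by
      rintro _ h x ⟨hx, rfl⟩
      replace h : (m 0).t x = 0 ∨ (m 0).t x = 1 := h
      have h1 := ((hs 0 0 x).1 (res_sol.1 hx).1).1
      refine ((m 0).rig (by simp) 0 x (res_sol.1 hx).1).2 ?_
      rw [pq_add, he _ h]
      rw [he _ h] at h1
      exact (hg _ h).rig _ h1.1 (by simpa using h1.2) (res_sol.1 hx).2)
    fun l hl x hx => by
      have h1 := ((hs l 0 x).1 (res_sol.1 hx.1).1).1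
      refine not_or.1 fun (h : (m l).t x = 0 ∨ (m l).t x = 1) => ?_
      rw [he _ h] at h1
      exact (hg _ h).low _ l hl h1.1 h1.2 (res_sol.1 hx.1).2
  have key : ∀ a, a = 0 ∨ a = 1 → Nonempty ((R.Q 0).Cl (R.End a) ≃ ClU (X.B L) (L.geo (P.F a))
      (pq X L (P.F a) (τ a) (p a)) k fun c => P.yo a c ∈ V) := fun a h =>
    (m 0).card P.hB (P.hG a) (σ := pq X L (P.F a) (τ a) (p a)) (U' := U 0)
      (U := fun c => P.yo a c ∈ V) (by rw [pq_add, he a h]) (by simp) (by rintro x rfl; rfl)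
      fun c h1 h2 h3 => hΦ a (hI a h) _ 0 c (ha.bd (hI a h)) ⟨h1, by simpa using h2⟩
        (subset_closure h3)
  obtain ⟨e0⟩ := key 0 (Or.inl rfl)
  obtain ⟨e1⟩ := key 1 (Or.inr rfl)
  refine ⟨?_, ?_⟩
  · rintro a (rfl | rfl)
    exacts [e0.finite_iff.1 f0, e1.finite_iff.1 f1]
  · rwa [Prob.cnt, Prob.cnt, Nat.card_congr e0, Nat.card_congr e1] at f2

set_option maxHeartbeats 800000 in
/-- **generic data** -/
theorem gen (hc : Cmp P τ e full) (hz : SzL X L) (hm : Mds P τ) {t : ℝ} (ht : t ∈ Icc (0 : ℝ) 1)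
    (hk : 6 * k + X.d0 L + 2 * r - 2 * n - 2 = 0) {q₀ : WW X κ r n →₀ ℝ} (ha : P.Ad e fun _ => q₀)
    (hI : NoI (X.B L) (L.geo (P.F t)) (τ t) k) {O : (WW X κ r n →₀ ℝ) → Prop} (hO : St.IsOp O)
    (h0 : O 0) : ∃ q, O q ∧ P.Ad e (fun _ => q₀ + q) ∧
      Good (X.B L) (L.geo (P.F t)) (pq X L (P.F t) (τ t) (q₀ + q)) k fun _ => True := by
  have m := fun l : ℕ => (hm.pt t q₀ (k - l) (-6 * l) (by push_cast; linarith)).some
  obtain ⟨N, hN⟩ := hc.exists_lev (smP_const q₀).cp ha k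
  let A : (WW X κ r n →₀ ℝ) → Prop := fun q => P.Ad e (fun _ => q₀ + (1 : ℝ) • q) ∧
    P.Av τ k (fun l => {_y | N < l}) fun _ => q₀ + (1 : ℝ) • q
  have hA : St.IsOp A := hc.av_op hz (smP_const q₀).cp (γ := fun _ => 1) continuous_const
    (fun _ _ => abs_one.le) (fun l => isClosed_const) (fun l l' h y hy => lt_of_lt_of_le hy h)
    (Or.inr fun _ _ h _ => h)
  have hs : ∀ l q x, (m l).Q.Sol q x ↔ P.Sl τ k (q₀ + (1 : ℝ) • q) t l ((m l).cf x) ∧
      ((m l).cf x).Φ ≠ 0 := fun l q x => by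
    rw [(m l).sol, pq_add, Pa.Sl, and_assoc]
  have hj : ∀ l q c, A q → P.Sl τ k (q₀ + (1 : ℝ) • q) t l c → ∃ x, (m l).Q.Sol q x ∧
      (m l).cf x = c := fun l q c h1 h2 =>
    let ⟨x, d1, _, d3⟩ := (m l).surj q 0 c (by rw [pq_add]; exact h2.1) h2.2
      (hI.ne (h1.1.bd ht) h2.1 h2.2)
    ⟨x, d1, d3⟩
  let T : St (WW X κ r n) :=
    { S := Fin (N + 1)
      X := fun s => (m s).Q.X
      Sol := fun s => (m s).Q.Sol
      P := fun s => res (m s).Q fun _ => True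
      pr := fun x => x
      rank := fun s => N - s
      Adm := A }
  have ax : ∀ l, (res (m l).Q fun _ => True).Ax A := fun l => res_ax (m l).ax
    (fun _ _ => trivial) (fun _ _ _ _ _ => trivial) fun _ _ _ _ _ => .of_forall fun _ _ => trivial
  have neg : ∀ l q x, 0 < l → A q → (m l).Q.Sol q x → ¬(m l).Q.Reg q x := fun l q x h1 h2 h3 h4 => by
    have := (m l).ax.nonneg trivial h3 h4
    rw [(m l).hn] at this
    omega
  have hT : T.Ax :=
    { fin := inferInstanceAs (Finite (Fin (N + 1)))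
      ax := fun s : Fin (N + 1) => ax s
      adm := hA
      sol := fun _ _ _ _ hx => res_sol.2 ⟨hx, trivial⟩
      dens := fun (s : Fin (N + 1)) q x _ hx => Or.inr ((m s).dens q x hx one_ne_zero)
      comp := by
        rintro ⟨l, hl⟩ q₁ h0 hg α 𝒰 q u hq hu
        obtain ⟨c₀, l₁, l', b1, b2, b3, b4, -⟩ := hc.ult (k := k) (v := fun _ => l)
          (t := fun _ => t) (c := fun i => (m l).cf (u i)) tendsto_const_nhds
          (cv_path (smP_const q₀).cp (γ := fun _ => 1) continuous_const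
            (tendsto_const_nhds (x := t)) hq)
          (hu.mono fun i hi => ⟨ht, hi.1.1.bd ht, ((hs l _ _).1 hi.2).1⟩)
        obtain rfl : l = l₁ := b1.exists.choose_spec
        obtain ⟨x, d1, rfl⟩ := hj l' q₁ c₀ h0 b3
        rcases b2.eq_or_lt with rfl | h
        · exact Or.inr ⟨x, d1, (m l).near α 𝒰 u x _ (hu.mono fun i hi => hi.2.1) d1.1
            b3.1.toAdm (iso_refl P.hB (P.hG _) b3.1.toAdm)
            (by simp only [Subsingleton.elim _ (0 : Fin 0 → ℝ), tendsto_const_nhds]) (b4 rfl)⟩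
        · have h2 : l' ≤ N := not_lt.1 (h0.2 t ht l' _ b3)
          exact (neg l' q₁ x (by omega) h0 d1
            (hg ⟨l', by omega⟩ (by show N - l' < N - l; omega) x d1)).elim }
  obtain ⟨q, a1, a2, a3⟩ := hT.exists_good hO (q₀ := 0) ⟨by simpa using ha, by simpa using hN⟩ h0
  refine ⟨q, a2, by simpa using a1.1, fun c h1 h2 _ => ?_, fun c l hl h1 h2 _ => ?_⟩
  · have b3 : P.Sl τ k (q₀ + (1 : ℝ) • q) t 0 c := ⟨by rwa [one_smul], by simpa using h2⟩
    obtain ⟨x, d1, rfl⟩ := hj 0 q c a1 b3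
    have a4 : (m 0).Q.Reg q x := a3 ⟨0, by omega⟩ x d1
    have := ((m 0).rig (by simp) q x d1).1 fun y => by
      obtain ⟨u, hu⟩ := a4 y.1
      exact ⟨u, Prod.ext hu (funext fun i => i.elim0)⟩
    rwa [pq_add, one_smul] at this
  · have b3 : P.Sl τ k (q₀ + (1 : ℝ) • q) t l c := ⟨by rwa [one_smul], h2⟩
    obtain ⟨x, d1, -⟩ := hj l q c a1 b3
    exact neg l q x hl a1 d1 (a3 ⟨l, Nat.lt_succ_of_le (not_lt.1 (a1.2 t ht l c b3))⟩ x d1)

end Crest.Agent.X212.Eq82
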