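import Crest.Agent.X212.Eq82.Lnk

/-!
# Row 212, AN5: the count of the link datum
-/

set_option autoImplicit false
set_option linter.unusedSectionVars false
noncomputable section
open scoped Manifold ContDiff Topology InnerProductSpace
open MeasureTheory Set Function Filter

namespace Crest.Agent.X212.Eq82
open An Mod61 Abel74 Crest.Agent.R208.F
open Line51 (Ln)
open Dr59 (HR Cl)

variable {E : Type} [NormedAddCommGroup E] [NormedSpace ℝ E] [FiniteDimensional ℝ E]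
  [MeasurableSpace E] [BorelSpace E]
  {HM : Type} [TopologicalSpace HM] {I : ModelWithCorners ℝ E HM} [I.Boundaryless]
  {M : Type} [TopologicalSpace M] [ChartedSpace HM M] [IsManifold I ∞ M]
  [MeasurableSpace M] [BorelSpace M] [SecondCountableTopology M] [T2Space M] [CompactSpace M]
  {ι : Type} [Fintype ι] [DecidableEq ι] {κ : Type} [Fintype κ] [DecidableEq κ] {r n : ℕ}

variable {X : Bk I M ι} {L : Ln E M κ} {j : ℕ} {k : ℝ}

theorem pa_zero {D : Ed M} {P : Pa X L} {w : ℝ → Fin D.N → ℝ} {t : ℝ} (h : w t = 0) :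
    D.pa P w r n t = pt0 :=
  pt_ext (fun _ _ => by simp [Ed.pt, wpt, h, pt0]) (fun _ _ => by simp [Ed.pt, wpt, h, pt0])
    fun _ _ => by simp [Ed.pt, wpt, h, pt0]

theorem pq_pt0 {P : Pa X L} (hP : P.F 0 = X.F) {D : Ed M} {w : ℝ → Fin D.N → ℝ} (h : w 0 = 0)
    (q : WW X κ r n →₀ ℝ) : pq X L (P.F 0) (D.pa P w r n 0) q = wq (X.B L) X.F q := by
  rw [pa_zero h, pq, pt0_add, hP]

theorem Good.mono {lam : Type} [Fintype lam] {B : Base M ι lam} {G : Geo I M ι lam}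
    {τ : Pt M ι lam r n} (h : Good B G τ k fun _ => True) (U : Cfg M ι lam r → Prop) :
    Good B G τ k U :=
  ⟨fun c a b _ => h.rig c a b trivial, fun c l a b d _ => h.low c l a b d trivial⟩

/-- counting over a partition into boxes -/
theorem cntU_sum {lam : Type} [Fintype lam] {B : Base M ι lam} {G : Geo I M ι lam} (hB : B.OK I)
    (hG : G.OK B) {τ : Pt M ι lam r n} {A : Type} [Fintype A] {U : A → Cfg M ι lam r → Prop}
    (h1 : ∀ i c c', c.Adm B G → c'.Adm B G → Cfg.Iso B G.F c c' → U i c → U i c')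
    (h2 : ∀ c, c.Sol B G τ → c.kap B G = k → ∃! i, U i c) (h3 : ∀ i, Finite (ClU B G τ k (U i))) :
    cntU B G τ k (fun _ => True) = ∑ i, cntU B G τ k (U i) := by
  refine Eq.trans (Nat.card_congr (Equiv.ofBijective (fun x : Σ i, ClU B G τ k (U i) =>
    (Quot.map (fun c : {c : Cfg M ι lam r // c.Sol B G τ ∧ c.kap B G = k ∧ U x.1 c} =>
      ⟨c.1, c.2.1, c.2.2.1, trivial⟩) (fun _ _ e => e) x.2 : ClU B G τ k fun _ => True))
    ⟨?_, ?_⟩)).symm Nat.card_sigma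
  · rintro ⟨i, ⟨c⟩⟩ ⟨i', ⟨c'⟩⟩ e
    have e' := clU_exact hB hG e
    obtain rfl : i = i' := (h2 c'.1 c'.2.1 c'.2.2.1).unique
      (h1 i _ _ c.2.1.toAdm c'.2.1.toAdm e' c.2.2.2) c'.2.2.2
    exact congrArg _ (Quot.sound e')
  · rintro ⟨c, a1, a2, -⟩
    obtain ⟨i, hi, -⟩ := h2 c a1 a2
    exact ⟨⟨i, Quot.mk _ ⟨c, a1, a2, hi⟩⟩, rfl⟩

theorem exists_enum (J : Finset (SG X κ)) (n₀ : ℕ) :
    ∃ n ≥ n₀, ∃ g : Fin n → SG X κ, ∀ g' ∈ J, g' ∈ range g := by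
  let g₀ : SG X κ := ⟨⟨0, [], []⟩, contMDiff_const, HasCompactSupport.of_compactSpace _,
    fun _ h => (List.not_mem_nil h).elim, fun _ h => (List.not_mem_nil h).elim⟩
  exact ⟨J.card + n₀, le_add_self, Fin.append (fun i => J.equivFin.symm i) fun _ => g₀,
    fun g' h => ⟨Fin.castAdd _ (J.equivFin ⟨g', h⟩), by simp⟩⟩

/-- the empty data -/
def ed0 (M : Type) : Ed M := ⟨0, 0, 0, 0, 0, []⟩

variable [ConnectedSpace M] (h : LeafL X L) (hA : AsdS X L) (hk : k < 0)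
include h

theorem lb_fin : (Lb X L k).Finite := by
  obtain ⟨P, hP, -⟩ := h.path X.F X.pos_self
  obtain ⟨e, he, hc⟩ := h.cmp P (ed0 M) 0 (fun i => i.elim0) contDiff_const 0 0
  refine (hc.lab_fin (k := k) he h.int (t := 0) ⟨le_rfl, zero_le_one⟩).subset ?_
  rintro _ ⟨c, ξ, l, h1, h2, h3, rfl⟩
  refine ⟨l, c, ξ, ?_⟩
  rw [Pa.Sl, pq_pt0 hP rfl, wq_zero, hP]
  exact ⟨⟨h1, h2⟩, h3, rfl⟩

include hA hk

theorem core0 (hj : 6 * k + X.d0 L + 2 * j = 0) {A : Type} [Finite A] {a : A → H2 I M}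
    (T : ∀ i, Trk X L k (a i)) {tp : A → Prop} (hE : ∀ i, ¬tp i → (T i).Emp)
    (hT : ∀ i, tp i → (T i).Top j) (hu : ∀ i i', tp i → tp i' → i = i') (n₀ : ℕ) :
    ∃ (V : A → Set (Yo X)) (n : ℕ), n₀ ≤ n ∧ ∀ e > (0 : ℝ), ∃ q : WW X κ (j + 1 + n) n →₀ ℝ,
      Bd (X.B L) (L.geo X.F) (wq (X.B L) X.F q) e ∧
      Good (X.B L) (L.geo X.F) (wq (X.B L) X.F q) k (fun _ => True) ∧
      (∀ i, Finite (ClU (X.B L) (L.geo X.F) (wq (X.B L) X.F q) k fun c => (0, ob X.F c) ∈ V i) ∧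
        (Odd (cntU (X.B L) (L.geo X.F) (wq (X.B L) X.F q) k fun c => (0, ob X.F c) ∈ V i) ↔ tp i)) ∧
      ∀ c, c.Sol (X.B L) (L.geo X.F) (wq (X.B L) X.F q) → c.kap (X.B L) (L.geo X.F) = k →
        ∃ b ∈ Lb X L k, ∀ i, (0, ob X.F c) ∈ V i ↔ a i = b := by
  classical
  choose V hV using fun i => (T i).exists_box h ((em (tp i)).symm.imp (hE i) (hT i))
  obtain ⟨P, hP, -⟩ := h.path X.F X.pos_self
  have h0 : (0 : ℝ) ∈ Icc (0 : ℝ) 1 := ⟨le_rfl, zero_le_one⟩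
  have ok0 : (ed0 M).OK X.F := fun i => i.elim0
  have sm0 : ContDiff ℝ ∞ (0 : ℝ → Fin (ed0 M).N → ℝ) := contDiff_const
  let S : Set (Yo X) := {y | y.1 = 0} \
    ⋃ b ∈ Lb X L k, ⋂ i, if a i = b then V i else (closure (V i))ᶜ
  have hS : IsClosed S := (isClosed_eq continuous_fst continuous_const).sdiff
    (isOpen_biUnion fun b _ => isOpen_iInter_of_finite fun i => by
      split_ifs
      exacts [(hV i).op, isClosed_closure.isOpen_compl])
  obtain ⟨e₀, he₀, hc₀⟩ := h.cmp P _ _ ok0 sm0 0 0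
  have J1 := hc₀.avJ (k := k) he₀ hS (by
    rintro _ ⟨y1, y2⟩ ⟨t, -, l, c, ξ, a1, a2, -, rfl⟩
    obtain rfl : t = 0 := y1
    rw [Pa.Sl, pq_pt0 hP rfl, wq_zero, hP] at a1
    rw [hP] at a2
    refine y2 (mem_biUnion (x := lab X.F c ξ) ⟨c, ξ, l, a1.1, a1.2, a2, rfl⟩ (mem_iInter.2 fun i => ?_))
    have k : ∀ B, lab X.F c ξ ∈ B → P.yo 0 c ∈ (T i).P.SA ((T i).D.pa (T i).P (T i).w 0 0) k B :=
      fun B hB => ⟨0, h0, l, c, ξ, by
        rw [Pa.Sl, pq_pt0 (T i).F0 (T i).w0, wq_zero, Pa.yo, Pa.yo, (T i).F0, hP]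
        exact ⟨a1, a2, hB, rfl⟩⟩
    split_ifs with e
    · exact (hV i).ga (k _ e.symm)
    · exact fun hy => (hV i).bad _ hy (k _ (Ne.symm e))) (by
    rintro t - l c a1 ⟨y1, -⟩
    obtain rfl : t = 0 := y1
    have := a1.sol
    rw [pa_zero rfl, ← add_pt0 (τ := pt0)] at this
    exact (hA _ (P.pos 0) 0 0 k hk).ne bd_pt0 this a1.2)
  have J2 : ∀ᶠ J : Finset (SG X κ) in atTop, ∀ (n : ℕ) (g : Fin n → SG X κ),
      (∀ g' ∈ J, g' ∈ range g) → ∃ θ : WW X κ (j + 1 + n) n →₀ ℝ,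
        ∀ᶠ ε in 𝓝[>] (0 : ℝ), ∀ i, (T i).End (V i) (link g θ ε) (tp i) := by
    by_cases e : ∃ i, tp i
    · obtain ⟨i₀, e⟩ := e
      filter_upwards [(hV i₀).fin_top h (hT i₀ e)] with J hJ n g hg
      refine (hJ n g hg).imp fun θ hθ => hθ.mono fun ε hε i => ?_
      by_cases e' : tp i
      · obtain rfl := hu _ _ e e'
        rwa [eq_true e]
      · rw [eq_false e']; exact (hV i).fin_emp (hE i e') _
    · refine .of_forall fun J n g _ => ⟨0, .of_forall fun ε i => ?_⟩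
      have e' : ¬tp i := fun h' => e ⟨i, h'⟩
      rw [eq_false e']; exact (hV i).fin_emp (hE i e') _
  obtain ⟨J, J1, J2, J3⟩ := (J1.and (J2.and (eventually_all.2 fun i => (hV i).avJ h))).exists
  obtain ⟨n, hn, g, hg⟩ := exists_enum J n₀
  obtain ⟨θ, hθ⟩ := J2 n g hg
  refine ⟨V, n, hn, fun e he => ?_⟩
  have hd : 6 * k + X.d0 L + 2 * (j + 1 + n : ℕ) - 2 * n - 2 = 0 := by push_cast; linarith
  choose e' he' hc using fun i => h.cmp (T i).P _ _ (T i).ok (T i).sm (j + 1 + n) n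
  obtain ⟨e₁, he₁, hc₁⟩ := h.cmp P _ _ ok0 sm0 (j + 1 + n) n
  replace hc₁ := hc₁.mono (min_le_left e₁ e)
  have hcl : ∀ i, IsClosed (closure (V i) \ V i) := fun i => isClosed_closure.sdiff (hV i).op
  obtain ⟨ε, E1, E2, E3⟩ := (hθ.and (((av_link g θ hc₁ (lt_min he₁ he) h.sz hS hg J1).and
    (eventually_all.2 fun i => av_link g θ (hc i) (he' i) h.sz (hcl i) hg (J3 i))).filter_mono
      nhdsWithin_le_nhds)).exists
  have hγ : ∀ t ∈ Icc (0 : ℝ) 1, |1 - t| ≤ 1 := fun t ht => abs_le.2 ⟨by linarith [ht.2], by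
    linarith [ht.1]⟩
  obtain ⟨q, ⟨q1, q2⟩, q3, q4⟩ := gen hc₁ h.sz (h.mds P _ _ ok0 sm0 _ n (by omega)) h0 hd E2.1
    (by rw [pa_zero rfl]; exact hA _ (P.pos 0) _ _ k hk)
    (O := fun q => (P.Ad (min e₁ e) (fun t => link g θ ε + (1 - t) • q) ∧
      P.Av ((ed0 M).pa P 0 _ _) k (fun _ => S) fun t => link g θ ε + (1 - t) • q) ∧
      ∀ i, (T i).P.Ad (e' i) (fun t => link g θ ε + (1 - t) • q) ∧ (T i).P.Av
        ((T i).D.pa (T i).P (T i).w _ _) k (fun _ => closure (V i) \ V i)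
        fun t => link g θ ε + (1 - t) • q)
    (fun q₀ hq α l q hl => (hc₁.av_op h.sz (smP_const _).cp (by fun_prop) hγ (fun _ => hS)
      monotone_const (.inl trivial) q₀ hq.1 α l q hl).and (eventually_all.2 fun i =>
        (hc i).av_op h.sz (smP_const _).cp (by fun_prop) hγ (fun _ => hcl i) monotone_const
          (.inl trivial) q₀ (hq.2 i) α l q hl))
    (by simpa only [smul_zero, add_zero] using And.intro E2 E3)
  rw [pq_pt0 hP rfl, hP] at q4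
  refine ⟨link g θ ε + q, ?_, q4, fun i => ?_, fun c a1 a2 => ?_⟩
  · have := (q3.bd h0).mono (min_le_right _ _)
    rwa [hP] at this
  · have := lst (hc i) h.sz h.obn (h.mds _ _ _ (T i).ok (T i).sm _ n (by omega))
      (smP_lin (link g θ ε) q (γ := fun t => 1 - t) (contDiff_const.sub contDiff_id)) hd (hV i).op
      (.inl trivial) (q2 i).1 (q2 i).2 (fun t _ q l c _ a1 a2 => (hV i).ne a1.1.sm a2) (by
        rintro _ (rfl | rfl)
        · rw [pq_pt0 (T i).F0 (T i).w0, (T i).F0, sub_zero, one_smul]; exact q4.mono _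
        · rw [sub_self, zero_smul, add_zero]; exact (E1 i).1)
    obtain ⟨f1, f2⟩ := this
    replace f1 := f1 0 (.inl rfl)
    rw [pq_pt0 (T i).F0 (T i).w0] at f1 f2
    simp only [sub_self, zero_smul, add_zero, Pa.yo, (T i).F0, sub_zero, one_smul] at f1 f2
    refine ⟨f1, Iff.trans ?_ (E1 i).2⟩
    rw [← Nat.not_even_iff_odd, ← Nat.not_even_iff_odd]
    exact not_congr (Nat.even_add.1 f2)
  · have := q1.2 0 h0 0 c (by
      rw [Pa.Sl, pq_pt0 hP rfl, hP]; exact ⟨by simpa using a1, by simpa using a2⟩)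
    rw [Pa.yo, hP] at this
    obtain ⟨b, hb, hi⟩ := mem_iUnion₂.1 (not_not.1 fun h' => this ⟨rfl, h'⟩)
    refine ⟨b, hb, fun i => ?_⟩
    have := mem_iInter.1 hi i
    split_ifs at this with e
    · exact iff_of_true this e
    · exact iff_of_false (fun h' => this (subset_closure h')) e

omit hk in
/-- **CORE** -/
theorem coreS : CoreS X L := fun k j hk hj => ⟨lb_fin h, fun A _ a T tp hE hT hu => by
  classical
  refine ⟨fun i i' e hi => ?_, fun ha hL n₀ => ?_⟩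
  · obtain ⟨V, n, -, H⟩ := core0 h hA hk hj T hE hT hu 0
    obtain ⟨q, -, -, h1, h2⟩ := H 1 one_pos
    refine (h1 i').2.1 (cast (congrArg Odd ?_) ((h1 i).2.2 hi))
    refine Nat.card_congr (Quot.congr (Equiv.subtypeEquivRight fun c =>
      and_congr_right fun a1 => and_congr_right fun a2 => ?_) fun _ _ => Iff.rfl)
    obtain ⟨b, -, hb⟩ := h2 c a1 a2
    exact (hb i).trans (e ▸ (hb i').symm)
  · obtain ⟨V, n, hn, H⟩ := core0 h hA hk hj T hE hT hu n₀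
    refine ⟨n, hn, fun e he => (H e he).imp fun q ⟨h1, h2, h3, h4⟩ => ⟨h1, h2, ?_⟩⟩
    obtain ⟨P, hP, -⟩ := h.path X.F X.pos_self
    have := Fintype.ofFinite A
    rw [cntU_sum P.hB (hP ▸ P.hG 0) (fun i c c' a1 a2 a3 a4 => by
        rwa [← funext (h.obn _ X.pos_self _ c c' a1 a2 a3)]) (fun c a1 a2 => by
        obtain ⟨b, hb, hi⟩ := h4 c a1 a2
        obtain ⟨i, rfl⟩ := hL hb
        exact ⟨i, (hi i).2 rfl, fun i' h' => ha ((hi i').1 h')⟩) fun i => (h3 i).1,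
      Finset.odd_sum_iff_odd_card_odd]
    simp only [fun i => (h3 i).2]
    refine ⟨fun ho => ?_, fun ⟨i, hi⟩ => ?_⟩
    · obtain ⟨i, hi⟩ := Finset.card_pos.1 ho.pos
      exact ⟨i, (Finset.mem_filter.1 hi).2⟩
    · rw [Finset.card_eq_one.2 ⟨i, Finset.eq_singleton_iff_unique_mem.2 ⟨by simpa using hi,
        fun i' h' => hu _ _ (Finset.mem_filter.1 h').2 hi⟩⟩]
      exact odd_one⟩

end Crest.Agent.X212.Eq82
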