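import Crest.Agent.X212.Top0.Nv
import Crest.Agent.X212.Mod61.Mds

/-!
# Row 212, AN5 (helper82): the non-vanishing theorem
-/

set_option autoImplicit false
set_option linter.unusedSectionVars false
noncomputable section
open scoped Manifold ContDiff Topology

namespace Crest.Agent.X212.Eq82
open An

variable {E : Type} [NormedAddCommGroup E] [NormedSpace ℝ E] [FiniteDimensional ℝ E]
  [MeasurableSpace E] [BorelSpace E]
  {HM : Type} [TopologicalSpace HM] {I : ModelWithCorners ℝ E HM} [I.Boundaryless]
  {M : Type} [TopologicalSpace M] [ChartedSpace HM M] [IsManifold I ∞ M]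
  [MeasurableSpace M] [BorelSpace M] [SecondCountableTopology M] [T2Space M] [CompactSpace M]
  {ι : Type} [Fintype ι] [DecidableEq ι]

/-- **NV** -/
theorem nv [ConnectedSpace M] (X : Bk I M ι) (h2 : 2 ≤ Num57.bp X.ok.ori) : NV X :=
  Top0.nv_mds X h2 fun _ _ _ _ hL => Mod61.mdsL X hL

end Crest.Agent.X212.Eq82
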