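import Crest.Agent.X212.Eq82.Bas
import Crest.Agent.X212.Spn45.Aff
import Crest.Agent.X212.Cmp73.Cv
import Crest.Agent.X212.Mod61.Hs

/-!
# Row 212, AN5: transport of smooth limits
-/

set_option autoImplicit false
set_option linter.unusedSectionVars false
noncomputable section
open scoped Manifold ContDiff Topology InnerProductSpace
open MeasureTheory Set Function Filter

namespace Crest.Agent.X212.Eq82
open An Mod61 Abel74 Crest.Agent.R208.F
open Line51 (Ln)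
open Dr59 (HR Cl)

variable {E : Type} [NormedAddCommGroup E] [NormedSpace ℝ E] [FiniteDimensional ℝ E]
  [MeasurableSpace E] [BorelSpace E]
  {HM : Type} [TopologicalSpace HM] {I : ModelWithCorners ℝ E HM} [I.Boundaryless]
  {M : Type} [TopologicalSpace M] [ChartedSpace HM M] [IsManifold I ∞ M]
  [MeasurableSpace M] [BorelSpace M] [SecondCountableTopology M] [T2Space M] [CompactSpace M]
  {ι : Type} [Fintype ι] [DecidableEq ι] {κ : Type} [Fintype κ] [DecidableEq κ] {r n : ℕ}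

variable {lam : Type} [Fintype lam] {B : Base M ι lam} {G : Geo I M ι lam}
  {c₀ c₁ : Cfg M ι lam r}

/-- transport of a configuration on the module of `c₀` -/
@[reducible] def psh (c₀ c₁ : Cfg M ι lam r) (u : M → CL c₀.m.V c₁.m.V) (ζ : Circle) (W : c₀.m.Cn)
    (Φ : M → c₀.m.V) (z : EuclideanSpace ℂ (Fin r)) : Cfg M ι lam r :=
  ⟨c₁.m, fun a x => c₁.W a x + u x ∘L (W a x - c₀.W a x) ∘L trn (u x),
    fun x => Eqv71.csL c₁.m.J ζ (u x (Φ x)), ((ζ : ℂ) ^ 2) • z⟩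

theorem psh_spec (hB : B.OK I) (a₀ : c₀.Adm B G) (a₁ : c₁.Adm B G)
    {u : M → CL c₀.m.V c₁.m.V} {ζ : Circle}
    (e : CEq G.F c₀ c₁ univ id (fun x b a => B.P b a x) B.l u ζ) {W : c₀.m.Cn} {Φ : M → c₀.m.V}
    {z : EuclideanSpace ℂ (Fin r)} (a : Cfg.Adm ⟨c₀.m, W, Φ, z⟩ B G) :
    (psh c₀ c₁ u ζ W Φ z).Adm B G ∧ Cfg.Iso B G.F ⟨c₀.m, W, Φ, z⟩ (psh c₀ c₁ u ζ W Φ z) := by
  have me := fun x => Eqv71.me_of_meq e.m (mem_univ x)
  have be := Eqv71.BE.refl hB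
  have su : Sm I u := contMDiffOn_univ.1 e.m.su
  have hd := Spn45.dif_mem a₀.conn a.conn a₀.ok
  have hp := fun x => (Spn45.p1_iff.1 (Spn45.p1_dif a₀.conn a.conn a₀.ok x)).2
  have k : ∀ b x, u x ∘L (W b x - c₀.W b x) ∘L trn (u x) =
      opL (Eqv71.cj (u x) (Spn45.dif c₀.m c₀.W W x b)) := fun b x => by
    rw [Spn45.dif_apply, Eqv71.cj_hsL, Eqv71.opL_hsL, ContinuousLinearMap.mul_def,
      ContinuousLinearMap.comp_assoc, ← ContinuousLinearMap.comp_assoc (u x) (c₀.m.p x),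
      (me x).up a₀.ok]
  have C : c₁.m.IsConn B G (psh c₀ c₁ u ζ W Φ z).W := by
    simp only [k]
    exact isConn_addC a₁.ok a₁.conn (β := fun x => WithLp.toLp 2 fun b =>
      Eqv71.cj (u x) (Spn45.dif c₀.m c₀.W W x b))
      (fun b x => (Eqv71.sa_cj (su x)).clm_apply
        ((Grp76.pj c₀.m.A b).contMDiff.comp (Spn45.sm_dif a₀.ok a₀.conn a.conn) x))
      (fun x b => (me x).cj_mem (be x) a₀.ok a₁.ok (hd x b)) fun x b => by
        simp only [← map_smul, ← map_sum, hp]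
  refine ⟨⟨a₁.ok, C, (Eqv71.csL c₁.m.J ζ).contMDiff.comp (su.clm_apply a.sm), fun x => ?_,
    a.z.imp id fun h => ?_⟩, u, ζ, e.m, fun x _ b => ?_, fun _ _ => rfl, rfl⟩
  · have := ((me x).phase a₁.ok ζ).pp ((be x).phase hB (ζ * ζ)) hB hB a₀.ok (Φ x)
    rw [show c₀.m.pp B x (Φ x) = Φ x from a.pos x] at this
    exact this
  · rw [norm_smul, norm_pow, Circle.norm_coe, one_pow, one_mul]; exact h
  · have h1 := e.W x trivial b
    have h2 : ∀ V : c₁.m.Cn, c₁.m.IsConn B G V → ∑ k, B.P k b x • V k x = V b x := fun V h => by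
      simp only [← h.cc.proj b x, (hB.pr x).symm b]
    simp only [id] at h1 ⊢
    rw [h2 _ a₁.conn] at h1
    rw [h2 _ C, ← h1, ContinuousLinearMap.add_comp, ContinuousLinearMap.comp_assoc,
      ContinuousLinearMap.comp_assoc, (me x).uu, ← ContinuousLinearMap.mul_def,
      Spn45.sub_p a₀.conn a.conn, ContinuousLinearMap.mul_def, ← ContinuousLinearMap.comp_assoc,
      (me x).up a₀.ok, ContinuousLinearMap.comp_sub]
    abel

variable {α : Type} {l : Filter α} {c : α → Cfg M ι lam r}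

/-- the limit may be replaced by an isomorphic one -/
theorem SLim.congr (hB : B.OK I) (hG : G.OK B) (h : SLim B l (fun _ => G) c c₀)
    (hc : ∀ᶠ i in l, (c i).Adm B G) (a₀ : c₀.Adm B G) (a₁ : c₁.Adm B G) (e : Cfg.Iso B G.F c₀ c₁) :
    SLim B l (fun _ => G) c c₁ := by
  obtain ⟨W, Φ, z, h1, h2, h3, h4⟩ := h
  obtain ⟨u, ζ, e⟩ := e
  have su : Sm I u := contMDiffOn_univ.1 e.m.su
  have cu : Cmp73.Cv I l univ (fun _ => u) u := .fixed' su
  refine ⟨fun i => (psh c₀ c₁ u ζ (W i) (Φ i) (z i)).W, fun i => (psh c₀ c₁ u ζ (W i) (Φ i) (z i)).Φ,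
    fun i => (psh c₀ c₁ u ζ (W i) (Φ i) (z i)).z, (h1.and hc).mono fun i hi => ?_, fun a => ?_,
    ((cu.app h3).clm (Eqv71.csL c₁.m.J ζ)).congr' isOpen_univ (.of_forall fun _ _ _ => rfl)
      fun x _ => e.Φ x trivial, e.z ▸ h4.const_smul _⟩
  · have := psh_spec hB a₀ a₁ e hi.1.1
    exact ⟨this.1, iso_trans hB hG hi.2 hi.1.1 this.1 hi.1.2 this.2⟩
  · exact ((Cmp73.Cv.fixed' (a₁.conn.cc.sm a)).add (cu.clm_comp (((h2 a).sub
      (.fixed' (a₀.conn.cc.sm a))).clm_comp (.fixed' fun x => Eqv71.sa_trn (su x))))).congr'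
      isOpen_univ (.of_forall fun _ _ _ => rfl) fun x _ => by simp

theorem SLim.mono {G : α → Geo I M ι lam} (h : SLim B l G c c₀) {l' : Filter α} (hl : l' ≤ l) :
    SLim B l' G c c₀ :=
  let ⟨W, Φ, z, h1, h2, h3, h4⟩ := h
  ⟨W, Φ, z, h1.filter_mono hl, fun a => (h2 a).mono hl subset_rfl, h3.mono hl subset_rfl,
    h4.mono_left hl⟩

/-- an isomorphism of the parts without `z` lifts -/
theorem iso_wz {c : Cfg M ι lam r} {x : Cfg M ι lam 0} (a : c.Adm B G) (ax : x.Adm B G)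
    (e : Cfg.Iso B G.F (fz c) x) : ∃ z, (wz x z).Adm B G ∧ Cfg.Iso B G.F c (wz x z) := by
  obtain ⟨u, ζ, e⟩ := e
  refine ⟨((ζ : ℂ) ^ 2) • c.z, ⟨ax.ok, ax.conn, ax.sm, ax.pos, a.z.imp id fun h => ?_⟩,
    u, ζ, e.m, e.W, e.Φ, rfl⟩
  rw [← h]
  exact (norm_smul _ _).trans (by rw [norm_pow, Circle.norm_coe, one_pow, one_mul])

end Crest.Agent.X212.Eq82
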