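import Crest.Agent.X212.Eq82.Sub
import Crest.Agent.X212.Eq82.Slim
import Crest.Agent.X212.Abel74.Lab
import Crest.Agent.X212.Weil93.Main

/-!
# Row 212, AN5: points with vanishing scalars
-/

set_option autoImplicit false
set_option linter.unusedSectionVars false
noncomputable section
open scoped Manifold ContDiff Topology InnerProductSpace
open MeasureTheory Set Function Filter

namespace Crest.Agent.X212.Eq82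
open An Mod61 Abel74 Crest.Agent.R208.F
open Line51 (Ln)
open Dr59 (HR Cl)

variable {E : Type} [NormedAddCommGroup E] [NormedSpace ℝ E] [FiniteDimensional ℝ E]
  [MeasurableSpace E] [BorelSpace E]
  {HM : Type} [TopologicalSpace HM] {I : ModelWithCorners ℝ E HM} [I.Boundaryless]
  {M : Type} [TopologicalSpace M] [ChartedSpace HM M] [IsManifold I ∞ M]
  [MeasurableSpace M] [BorelSpace M] [SecondCountableTopology M] [T2Space M] [CompactSpace M]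
  {ι : Type} [Fintype ι] [DecidableEq ι] {κ : Type} [Fintype κ] [DecidableEq κ] {r n : ℕ}

variable {X : Bk I M ι} {L : Ln E M κ}

theorem Bk.pos_self (X : Bk I M ι) : X.Pos X.F :=
  ⟨X.ok.isv, rfl, fun x _ => mul_self_pos.2 (X.ok.ori.ne x), fun _ => 1,
    fun a b => contMDiff_const (c := (1 : Matrix ι ι ℝ) a b),
    fun _ => ⟨.one, by rw [Matrix.one_mul, Matrix.mul_one]⟩,
    funext fun a => funext fun x => (Met55.dfm_of_one (I := I) (x := x) (A := fun _ => 1) rfl a).symm⟩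

theorem pq_zero (F : Fr I M ι) (σ : Pt M ι (κ ⊕ κ) r n) : pq X L F σ 0 = σ := by
  rw [pq, wq_zero, add_pt0]

theorem ob_none {F₀ : Fr I M ι} (F : Fr I M ι) {c : Cfg M ι (κ ⊕ κ) r} (hs : Sm I c.Φ) :
    0 < ob (F₀ := F₀) F c none ↔ c.Φ ≠ 0 := by
  have := Sob92.openPos F.toPre
  refine ⟨fun h h0 => by simp [ob, h0] at h, fun h => ?_⟩
  obtain ⟨y, hy⟩ := Function.ne_iff.1 h
  exact (hs.continuous.norm.pow 2).integral_pos_of_hasCompactSupport_nonneg_nonzero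
    (HasCompactSupport.of_compactSpace _) (fun x => sq_nonneg _)
    (pow_ne_zero 2 (norm_ne_zero_iff.2 hy))

/-- labels are eventually that of the limit -/
theorem lab_lim (hI : IntL X L) {α : Type} {l : Filter α} {F : α → Fr I M ι} {F₀ : Fr I M ι}
    {c : α → Cfg M ι (κ ⊕ κ) 0} {c₀ : Cfg M ι (κ ⊕ κ) 0} (h : Out X l F F₀ c c₀)
    {ξ : ∀ i, M → (c i).m.A} (hF : ∀ i, X.Pos (F i)) (hF₀ : X.Pos F₀)
    (a₀ : c₀.Adm (X.B L) (L.geo F₀))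
    (hc : ∀ᶠ i in l, (c i).Adm (X.B L) (L.geo (F i)) ∧ SPt (F i) (c i) (ξ i)) :
    ∃ ξ₀, SPt F₀ c₀ ξ₀ ∧ ∀ᶠ i in l, lab (F i) (c i) (ξ i) = lab F₀ c₀ ξ₀ := by
  obtain ⟨ξ₀, h1, h2⟩ := h.spt ξ (hc.mono fun _ hi => hi.2)
  obtain ⟨n, m, N, hN, hs⟩ := Weil93.weil_span I M
  have hb : ∀ q, lcl I (N q) ∈ Lat I M := fun q =>
    AddSubgroup.subset_closure ⟨_, _, inferInstance, N q, hN q, rfl⟩
  refine ⟨ξ₀, h1, ?_⟩
  have k : ∀ q, ∀ᶠ i in l, X.Q (lab (F i) (c i) (ξ i) - lab F₀ c₀ ξ₀) (lcl I (N q)) = 0 := fun q => by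
    filter_upwards [hc, (h2 (lcl I (N q))).eventually (Metric.ball_mem_nhds _ one_pos)] with i a b
    obtain ⟨u, hu⟩ := hI _ (hF i) _ _ a.1 a.2 _ (hb q)
    obtain ⟨v, hv⟩ := hI _ hF₀ _ _ a₀ h1 _ (hb q)
    rw [Real.dist_eq, hu, hv, ← Int.cast_sub, ← Int.cast_abs, ← Int.cast_one, Int.cast_lt,
      Int.abs_lt_one_iff] at b
    rw [map_sub, LinearMap.sub_apply, hu, hv, ← Int.cast_sub, b, Int.cast_zero]
  filter_upwards [eventually_all.2 k] with i hi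
  refine sub_eq_zero.1 (X.ok.Q_nondeg fun z => LinearMap.congr_fun
    (LinearMap.ext_on hs (g := 0) ?_) z)
  rintro _ ⟨q, rfl⟩
  have := hi q
  rw [lcl, cl2_eq ((hN q).cl_F isOpen_univ), map_smul, smul_eq_zero] at this
  exact this.resolve_left (by positivity)

variable {P : Pa X L} {τ : ℝ → Pt M ι (κ ⊕ κ) 0 0} {e k : ℝ}

/-- the points of type S with label in `A` -/
def Pa.SA (P : Pa X L) (τ : ℝ → Pt M ι (κ ⊕ κ) 0 0) (k : ℝ) (A : Set (H2 I M)) : Set (Yo X) :=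
  {y | ∃ t ∈ Icc (0 : ℝ) 1, ∃ l c ξ, P.Sl τ k 0 t l c ∧ SPt (P.F t) c ξ ∧ lab (P.F t) c ξ ∈ A ∧
    P.yo t c = y}

/-- limits of unperturbed solutions -/
theorem Cmp.lim0 (h : Cmp P τ e True) (he : 0 < e) {α : Type} {𝒰 : Ultrafilter α} {t : α → ℝ}
    {v : α → ℕ} {c : α → Cfg M ι (κ ⊕ κ) 0}
    (hc : ∀ᶠ i in (𝒰 : Filter α), t i ∈ Icc (0 : ℝ) 1 ∧ P.Sl τ k 0 (t i) (v i) (c i)) :
    ∃ t₀ ∈ Icc (0 : ℝ) 1, ∃ (c₀ : Cfg M ι (κ ⊕ κ) 0) (l l' : ℕ), Tendsto t 𝒰 (𝓝 t₀) ∧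
      (∀ᶠ i in (𝒰 : Filter α), v i = l) ∧ l ≤ l' ∧ P.Sl τ k 0 t₀ l' c₀ ∧
      (l' = l → SLim (X.B L) (𝒰 : Filter α) (fun i => L.geo (P.F (t i))) c c₀) ∧
      Out X (𝒰 : Filter α) (fun i => P.F (t i)) (P.F t₀) c c₀ := by
  obtain ⟨t₀, a1, a2⟩ := exists_lim (hc.mono fun _ hi => hi.1)
  obtain ⟨c₀, l, l', b1, b2, b3, b4, b5⟩ := h.ult (k := k) (v := v) (c := c) a2 (St.cv_const _ 0)
    (hc.mono fun i hi => ⟨hi.1, (Pa.bd_zero _).mono he.le, hi.2⟩)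
  exact ⟨t₀, a1, c₀, l, l', a2, b1, b2, b3, b4, b5 trivial⟩

theorem Cmp.sa_cpt (h : Cmp P τ e True) (he : 0 < e) (hI : IntL X L) (A : Set (H2 I M)) :
    IsCompact (P.SA τ k A) := by
  refine isCompact_iff_ultrafilter_le_nhds.2 fun 𝒰 hU => ?_
  have h1 : ∀ᶠ y in (𝒰 : Filter (Yo X)), ∃ u : ℝ × ℕ × Σ c : Cfg M ι (κ ⊕ κ) 0, M → c.m.A,
      u.1 ∈ Icc (0 : ℝ) 1 ∧ P.Sl τ k 0 u.1 u.2.1 u.2.2.1 ∧ SPt (P.F u.1) u.2.2.1 u.2.2.2 ∧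
      lab (P.F u.1) u.2.2.1 u.2.2.2 ∈ A ∧ P.yo u.1 u.2.2.1 = y :=
    Eventually.mono (le_principal_iff.1 hU) fun y ⟨t, a, l, c, ξ, b⟩ => ⟨⟨t, l, c, ξ⟩, a, b⟩
  have := h1.exists.choose_spec.nonempty
  obtain ⟨u, hu⟩ := h1.choice
  obtain ⟨t₀, a1, c₀, l, l', a2, -, -, a3, -, a4⟩ := h.lim0 he (hu.mono fun i hi => ⟨hi.1, hi.2.1⟩)
  obtain ⟨ξ₀, b1, b2⟩ := lab_lim hI a4 (fun _ => P.pos _) (P.pos _) a3.1.toAdm
    (hu.mono fun i hi => ⟨hi.2.1.1.toAdm, hi.2.2.1⟩)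
  obtain ⟨i, d1, d2⟩ := (hu.and b2).exists
  exact ⟨_, ⟨t₀, a1, l', c₀, ξ₀, a3, b1, d2 ▸ d1.2.2.2.1, rfl⟩,
    (a4.yo a2).congr' (hu.mono fun i hi => hi.2.2.2.2)⟩

/-- finitely many labels -/
theorem Cmp.lab_fin (h : Cmp P τ e True) (he : 0 < e) (hI : IntL X L) {t : ℝ}
    (ht : t ∈ Icc (0 : ℝ) 1) : {b | ∃ l c ξ, P.Sl τ k 0 t l c ∧ SPt (P.F t) c ξ ∧
      lab (P.F t) c ξ = b}.Finite := by
  by_contra hn
  have hb := fun i => (Set.Infinite.natEmbedding _ hn i).2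
  choose v c ξ h1 h2 h3 using hb
  obtain ⟨t₀, -, c₀, l, l', -, -, -, a3, -, a4⟩ := h.lim0 he (𝒰 := hyperfilter ℕ)
    (t := fun _ => t) (.of_forall fun i => ⟨ht, h1 i⟩)
  obtain ⟨ξ₀, -, b2⟩ := lab_lim hI a4 (fun _ => P.pos _) (P.pos _) a3.1.toAdm
    (.of_forall fun i => ⟨(h1 i).1.toAdm, h2 i⟩)
  obtain ⟨i, hi⟩ := b2.exists
  obtain ⟨j, d1, d2⟩ := (b2.and (hyperfilter_le_cofinite (eventually_cofinite_ne i))).exists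
  exact d2 ((Set.Infinite.natEmbedding _ hn).injective
    (Subtype.ext (by rw [← h3, ← h3, d1, hi])))

/-- limits when more and more scalars vanish -/
theorem Cmp.limJ [ConnectedSpace M] (h : Cmp P τ e True) (he : 0 < e)
    {𝒰 : Ultrafilter (Finset (SG X κ))} (hU : (𝒰 : Filter (Finset (SG X κ))) ≤ atTop)
    {p : ℝ → ℕ → Cfg M ι (κ ⊕ κ) 0 → Prop}
    (hc : ∀ᶠ J in (𝒰 : Filter (Finset (SG X κ))), ∃ t ∈ Icc (0 : ℝ) 1, ∃ l c, P.Sl τ k 0 t l c ∧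
      (∀ g ∈ J, c.sg (P.F t) g.1 = 0) ∧ p t l c) :
    ∃ (t : _ → ℝ) (v : _ → ℕ) (c : _ → Cfg M ι (κ ⊕ κ) 0), ∃ t₀ ∈ Icc (0 : ℝ) 1,
      ∃ (c₀ : Cfg M ι (κ ⊕ κ) 0) (l l' : ℕ), (∀ᶠ J in (𝒰 : Filter (Finset (SG X κ))),
        P.Sl τ k 0 (t J) (v J) (c J) ∧ (∀ g ∈ J, (c J).sg (P.F (t J)) g.1 = 0) ∧
        p (t J) (v J) (c J) ∧ v J = l) ∧ l ≤ l' ∧ P.Sl τ k 0 t₀ l' c₀ ∧
      (l' = l → SLim (X.B L) (𝒰 : Filter (Finset (SG X κ))) (fun i => L.geo (P.F (t i))) c c₀) ∧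
      Tendsto (fun J => P.yo (t J) (c J)) 𝒰 (𝓝 (P.yo t₀ c₀)) ∧
      (c₀.Φ ≠ 0 → ∃ ξ, SPt (P.F t₀) c₀ ξ) := by
  have h1 : ∀ᶠ J in (𝒰 : Filter (Finset (SG X κ))), ∃ u : ℝ × ℕ × Cfg M ι (κ ⊕ κ) 0,
      u.1 ∈ Icc (0 : ℝ) 1 ∧ P.Sl τ k 0 u.1 u.2.1 u.2.2 ∧ (∀ g ∈ J, u.2.2.sg (P.F u.1) g.1 = 0) ∧
      p u.1 u.2.1 u.2.2 := hc.mono fun y ⟨t, a, l, c, b⟩ => ⟨⟨t, l, c⟩, a, b⟩
  have := h1.exists.choose_spec.nonempty
  obtain ⟨u, hu⟩ := h1.choice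
  obtain ⟨t₀, a1, c₀, l, l', a2, a5, a6, a3, a7, a4⟩ :=
    h.lim0 he (hu.mono fun i hi => ⟨hi.1, hi.2.1⟩)
  refine ⟨_, _, _, t₀, a1, c₀, l, l', (hu.and a5).mono fun J hJ =>
    ⟨hJ.1.2.1, hJ.1.2.2.1, hJ.1.2.2.2, hJ.2⟩, a6, a3, a7, a4.yo a2, fun h0 => ?_⟩
  have a := a3.1.toAdm
  obtain ⟨y, hy⟩ := Function.ne_iff.1 h0
  refine exists_spt_of (pc_closed X.ok.h4.le P.hB (P.hG t₀) a.ok a.conn a.sm a.pos)
    (fun x => ⟨y, by rw [PreconnectedSpace.connectedComponent_eq_univ]; trivial, hy⟩)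
    fun g hg => norm_eq_zero.1 (tendsto_nhds_unique (a4.sg g (hg.ok X.F)) ?_)
  refine tendsto_const_nhds.congr' ?_
  filter_upwards [hu, hU (eventually_ge_atTop {⟨g, hg.ok X.F⟩})] with J h2 h3
  exact (norm_eq_zero.2 (h2.2.2.1 _ (h3 (Finset.mem_singleton_self _)))).symm

/-- closed sets without points of type S are avoided -/
theorem Cmp.avJ [ConnectedSpace M] (h : Cmp P τ e True) (he : 0 < e) {S : Set (Yo X)}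
    (hS : IsClosed S) (h1 : ∀ y ∈ S, y ∉ P.SA τ k univ)
    (h2 : ∀ t ∈ Icc (0 : ℝ) 1, ∀ l c, P.Sl τ k 0 t l c → P.yo t c ∈ S → c.Φ ≠ 0) :
    ∀ᶠ J : Finset (SG X κ) in atTop, ∀ t ∈ Icc (0 : ℝ) 1, ∀ l c, P.Sl τ k 0 t l c →
      (∀ g ∈ J, c.sg (P.F t) g.1 = 0) → P.yo t c ∉ S := by
  refine ev_of_ult fun 𝒰 hU hn => ?_
  obtain ⟨t, v, c, t₀, a1, c₀, l, l', a2, -, a3, -, a4, a5⟩ := h.limJ (k := k) he hU
    (p := fun t _ c => P.yo t c ∈ S) (hn.mono fun J hJ => by push Not at hJ; exact hJ)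
  have b := hS.mem_of_tendsto a4 (a2.mono fun _ hi => hi.2.2.1)
  obtain ⟨ξ, hξ⟩ := a5 (h2 _ a1 _ _ a3 b)
  exact h1 _ b ⟨t₀, a1, l', c₀, ξ, a3, hξ, trivial, rfl⟩

end Crest.Agent.X212.Eq82
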