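import Crest.Agent.X212.Eq82.Fix

/-!
# Row 212, AN5: the link datum, boxes, ends of tracks
-/

set_option autoImplicit false
set_option linter.unusedSectionVars false
noncomputable section
open scoped Manifold ContDiff Topology InnerProductSpace
open MeasureTheory Set Function Filter

namespace Crest.Agent.X212.Eq82
open An Mod61 Abel74 Crest.Agent.R208.F
open Line51 (Ln)
open Dr59 (HR Cl)

variable {E : Type} [NormedAddCommGroup E] [NormedSpace ℝ E] [FiniteDimensional ℝ E]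
  [MeasurableSpace E] [BorelSpace E]
  {HM : Type} [TopologicalSpace HM] {I : ModelWithCorners ℝ E HM} [I.Boundaryless]
  {M : Type} [TopologicalSpace M] [ChartedSpace HM M] [IsManifold I ∞ M]
  [MeasurableSpace M] [BorelSpace M] [SecondCountableTopology M] [T2Space M] [CompactSpace M]
  {ι : Type} [Fintype ι] [DecidableEq ι] {κ : Type} [Fintype κ] [DecidableEq κ] {r n : ℕ}

variable {X : Bk I M ι} {L : Ln E M κ} {j : ℕ}

/-! ### the link datum -/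

section link
variable {lam : Type} [Fintype lam] {B : Base M ι lam} {F F₀ : Fr I M ι}

theorem wq_single (T : Wt lam r n F₀) :
    wq B F (Finsupp.single T 1) = ⟨fun c => c.tD B F T.1, fun c => c.tC B F T.1, fun c => c.tS F T.1⟩ :=
  pt_ext (fun _ _ => by simp [wq]) (fun _ _ => by simp [wq]) fun _ _ => by simp [wq]

theorem wq_sum {A : Type} (s : Finset A) (q : A → Wt lam r n F₀ →₀ ℝ) :
    wq B F (∑ i ∈ s, q i) = ⟨fun c x => ∑ i ∈ s, (wq B F (q i)).D c x,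
      fun c x => ∑ i ∈ s, (wq B F (q i)).C c x, fun c x => ∑ i ∈ s, (wq B F (q i)).S c x⟩ := by
  classical
  induction s using Finset.induction_on with
  | empty => rw [Finset.sum_empty, wq_zero]; rfl
  | insert a s ha ih => simp only [Finset.sum_insert ha, wq_add, ih, Pt.add]

variable (c : Cfg M ι lam r)

theorem sw_fz (w : SW M) : (fz c).sw F w = c.sw F w :=
  congrArg (fun f => Wrd81.wd f c.Φ w) (funext fun t => by cases t <;> rfl : (fz c).lt F = c.lt F)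

theorem aw_fz (ξ : AW M) : (fz c).aw F ξ = c.aw F ξ := by
  have h1 : (fz c).la F = c.la F := funext fun t => by cases t <;> rfl
  have h2 : (fz c).sd F ξ.s = c.sd F ξ.s := by
    cases ξ.s
    · simp only [Cfg.sd, sw_fz]; rfl
    · rfl
  exact congrArg₂ (fun f s => Wrd81.wd f s ξ.l) h1 h2

theorem aws_fz (l : List (AW M)) : (fz c).aws F l = c.aws F l :=
  funext fun x => by simp only [Cfg.aws, aw_fz]; rfl

theorem sg_fz (g : Sg M lam) : (fz c).sg F g = c.sg F g := by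
  simp only [Cfg.sg, sw_fz]; rfl

end link

variable (g : Fin n → SG X κ) (θ : WW X κ (j + 1 + n) n →₀ ℝ)

theorem wq_link0 (F : Fr I M ι) : wq (X.B L) F (link g θ 0) =
    ⟨fun _ => 0, fun _ => 0, fun c i => c.sg F (g i).1⟩ := by
  rw [link, zero_smul, add_zero, wq_sum]
  refine pt_ext (fun c x => ?_) (fun c x => ?_) fun c i => ?_ <;>
    simp [wq_single, Cfg.tD, Cfg.tC, Cfg.tS, Pi.single_apply]

theorem link_eq : ∃ θ', ∀ ε, link g θ ε = link g θ 0 + (1 : ℝ) • ε • θ' :=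
  ⟨_, fun ε => by rw [link, link, zero_smul, add_zero, one_smul]⟩

theorem cv_link {l : Filter ℝ} (hl : l ≤ 𝓝 0) : St.Cv l (link g θ) (link g θ 0) := by
  obtain ⟨θ', h⟩ := link_eq g θ
  have := cv_path (smP_const (link g θ 0)).cp (continuous_const (y := 1))
    (tendsto_const_nhds (x := 0)) (cv_smul (a := id) hl θ')
  rw [smul_zero, add_zero] at this
  exact this.imp fun _ k => ⟨fun ε => h ε ▸ k.1 ε, fun w => (k.2 w).congr fun ε => by rw [h ε]; rfl⟩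

variable {P : Pa X L} {e k : ℝ}

theorem ad_link0 (he : 0 < e) : P.Ad e fun _ => link g θ 0 :=
  ⟨0, he, fun t _ c _ _ _ _ x => by simp [wq_link0]⟩

variable {g θ} {D : Ed M} {w : ℝ → Fin D.N → ℝ}

theorem sl_fz {t : ℝ} {l : ℕ} {c : Cfg M ι (κ ⊕ κ) (j + 1 + n)}
    (h : P.Sl (D.pa P w _ _) k (link g θ 0) t l c) :
    P.Sl (D.pa P w 0 0) k 0 t l (fz c) ∧ ∀ i, (fz c).sg (P.F t) (g i).1 = 0 := by
  obtain ⟨⟨a, h1, h2, h3⟩, h4⟩ := h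
  rw [pq, wq_link0] at h1 h2 h3
  rw [Pa.Sl, pq_zero]
  refine ⟨⟨⟨⟨a.ok, a.conn, a.sm, a.pos, .inl rfl⟩, fun x => ?_, fun x => ?_, fun i => i.elim0⟩, h4⟩,
    fun i => ?_⟩
  · refine Eq.trans ?_ (h1 x)
    simp only [Cfg.eD, Pt.add, Pi.zero_apply, add_zero]; rfl
  · refine Eq.trans ?_ (h2 x)
    simp only [Cfg.eC, Pt.add, Pi.zero_apply, add_zero, Ed.pa, Ed.pt, wpt, Ed.tm, Cfg.tC, aws_fz]
    rfl
  · simpa [Pt.add, Ed.pa, Ed.pt, wpt, Ed.tm, Cfg.tS, sg_fz] using h3 i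

theorem yo_fz (t : ℝ) (c : Cfg M ι (κ ⊕ κ) r) : P.yo t (fz c) = P.yo t c := by
  refine Prod.ext rfl (funext fun o => ?_)
  cases o
  · rfl
  · simp only [Pa.yo, ob, aw_fz]; rfl

variable (g θ) in
/-- closed sets avoided by the points with vanishing scalars are avoided by the link -/
theorem av_link (hc : Cmp P (D.pa P w (j + 1 + n) n) e True) (he : 0 < e) (hz : SzL X L)
    {S : Set (Yo X)} (hS : IsClosed S) {J : Finset (SG X κ)} (hJ : ∀ g' ∈ J, g' ∈ range g)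
    (h : ∀ t ∈ Icc (0 : ℝ) 1, ∀ l c, P.Sl (D.pa P w 0 0) k 0 t l c →
      (∀ g ∈ J, c.sg (P.F t) g.1 = 0) → P.yo t c ∉ S) :
    ∀ᶠ ε in 𝓝 (0 : ℝ), P.Ad e (fun _ => link g θ ε) ∧
      P.Av (D.pa P w _ _) k (fun _ => S) fun _ => link g θ ε := by
  obtain ⟨θ', h1⟩ := link_eq g θ
  have := hc.av_op (k := k) hz (smP_const (link g θ 0)).cp (continuous_const (y := 1))
    (fun _ _ => abs_one.le) (S := fun _ => S) (fun _ => hS) monotone_const (.inl trivial) 0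
    (by
      simp only [smul_zero, add_zero]
      refine ⟨ad_link0 g θ he, fun t ht l c hl => ?_⟩
      rw [← yo_fz]
      exact h t ht l _ (sl_fz hl).1 fun g' hg => let ⟨i, e⟩ := hJ g' hg; e ▸ (sl_fz hl).2 i)
    ℝ (𝓝 0) _ (cv_smul (a := id) tendsto_id θ')
  exact this.mono fun ε hε => by simpa only [h1 ε, id] using hε

/-! ### boxes -/

variable {a : H2 I M}

/-- a box around the points with the label of the track -/
structure Trk.Box (T : Trk X L k a) (V : Set (Yo X)) : Prop where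
  op : IsOpen V
  ga : T.P.SA (T.D.pa T.P T.w 0 0) k {a} ⊆ V
  bad : ∀ y ∈ closure V, y ∉ T.P.SA (T.D.pa T.P T.w 0 0) k {a}ᶜ
  pos : ∀ y ∈ closure V, 0 < y.2 none
  emp : T.Emp → ∀ y ∈ V, y.1 ≠ 1

theorem Pa.Sl.sol {τ : ℝ → Pt M ι (κ ⊕ κ) r n} {t : ℝ} {l : ℕ} {c : Cfg M ι (κ ⊕ κ) r}
    (h : P.Sl τ k 0 t l c) : c.Sol (X.B L) (L.geo (P.F t)) (τ t) := pq_zero (P.F t) (τ t) ▸ h.1

theorem Pa.Sl.le {τ : ℝ → Pt M ι (κ ⊕ κ) r n} {q : WW X κ r n →₀ ℝ} {t : ℝ} {l : ℕ}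
    {c : Cfg M ι (κ ⊕ κ) r} (h : P.Sl τ k q t l c) : c.kap (X.B L) (L.geo (P.F t)) ≤ k :=
  h.2.trans_le (sub_le_self _ l.cast_nonneg)

variable (T : Trk X L k a) (h : LeafL X L) {V : Set (Yo X)}
include h

theorem Trk.exists_box (hE : T.Emp ∨ T.Top j) : ∃ V, T.Box V := by
  obtain ⟨e, he, hc⟩ := h.cmp T.P T.D T.w T.ok T.sm 0 0
  have hΦ : ∀ t ∈ Icc (0 : ℝ) 1, ∀ l c ξ, T.P.Sl (T.D.pa T.P T.w 0 0) k 0 t l c →
      SPt (T.P.F t) c ξ → lab (T.P.F t) c ξ = a → c.Φ ≠ 0 ∧ (T.Emp → t ≠ 1) := by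
    intro t ht l c ξ h1 h2 h3
    have h4 := h1.sol
    have h5 : T.Emp → t ≠ 1 := by rintro h5 rfl; exact h5 c ξ h4 h1.le h2 h3
    refine ⟨?_, h5⟩
    rcases ht.2.eq_or_lt with rfl | h6
    · obtain ⟨x, ζ, b1, -, -, -, b2, -, b3⟩ := hE.resolve_left fun h7 => h5 h7 rfl
      refine fun h0 => b2 (funext fun y => norm_eq_zero.1 ?_)
      rw [iso_norm T.P.hB (T.P.hG 1) h4.toAdm b1.toAdm (b3 c ξ h4 h1.le h2 h3), h0]
      exact norm_zero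
    · exact T.wall t ⟨ht.1, h6⟩ c ξ h4 h1.le h2 h3
  obtain ⟨V, v1, v2, v3⟩ := (hc.sa_cpt (k := k) he h.int {a}).exists_isOpen_closure_subset
    (U := (T.P.SA (T.D.pa T.P T.w 0 0) k {a}ᶜ)ᶜ ∩ {y | 0 < y.2 none} ∩ {y | T.Emp → y.1 ≠ 1})
    ((((hc.sa_cpt he h.int _).isClosed.isOpen_compl.inter
      (isOpen_lt continuous_const (by fun_prop))).inter (by
        by_cases h1 : T.Emp
        · simpa [h1] using isOpen_ne.preimage continuous_fst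
        · simp [h1])).mem_nhdsSet.2 (by
      rintro _ ⟨t, ht, l, c, ξ, h1, h2, h3, rfl⟩
      have h4 := hΦ t ht l c ξ h1 h2 h3
      refine ⟨⟨?_, (ob_none (F₀ := X.F) _ h1.1.sm).2 h4.1⟩, h4.2⟩
      rintro ⟨t', -, l', c', ξ', d1, d2, d3, d4⟩
      obtain rfl : t' = t := congrArg Prod.fst d4
      exact d3 ((h.sep _ (T.P.pos _) c c' ξ ξ' h1.1.toAdm d1.1.toAdm h2 d2 h4.1 fun o =>
        (congrFun (congrArg Prod.snd d4) o).symm).symm.trans h3)))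
  exact ⟨V, v1, v2, fun y hy => (v3 hy).1.1, fun y hy => (v3 hy).1.2,
    fun h1 y hy => (v3 (subset_closure hy)).2 h1⟩

variable {T}

omit h in
theorem Trk.Box.ne (hV : T.Box V) {t : ℝ} {c : Cfg M ι (κ ⊕ κ) r} (hs : Sm I c.Φ)
    (hc : T.P.yo t c ∈ closure V) : c.Φ ≠ 0 := (ob_none (F₀ := X.F) _ hs).1 (hV.pos _ hc)

/-- the boundary of the box is avoided -/
theorem Trk.Box.avJ [ConnectedSpace M] (hV : T.Box V) :
    ∀ᶠ J : Finset (SG X κ) in atTop, ∀ t ∈ Icc (0 : ℝ) 1, ∀ l c,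
      T.P.Sl (T.D.pa T.P T.w 0 0) k 0 t l c → (∀ g ∈ J, c.sg (T.P.F t) g.1 = 0) →
      T.P.yo t c ∉ closure V \ V := by
  obtain ⟨e, he, hc⟩ := h.cmp T.P T.D T.w T.ok T.sm 0 0
  refine hc.avJ he (isClosed_closure.sdiff hV.op) ?_ fun t _ l c h1 h2 => hV.ne h1.1.sm h2.1
  rintro y hy ⟨t, ht, l, c, ξ, h1, h2, -, h3⟩
  by_cases e : lab (T.P.F t) c ξ = a
  · exact hy.2 (hV.ga ⟨t, ht, l, c, ξ, h1, h2, e, h3⟩)
  · exact hV.bad y hy.1 ⟨t, ht, l, c, ξ, h1, h2, e, h3⟩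

omit h in
/-- the end of the track is good, with odd count iff `b` -/
def Trk.End (T : Trk X L k a) (V : Set (Yo X)) (q : WW X κ r n →₀ ℝ) (b : Prop) : Prop :=
  Good (X.B L) (L.geo (T.P.F 1)) (pq X L (T.P.F 1) (T.D.pa T.P T.w r n 1) q) k
    (fun c => T.P.yo 1 c ∈ V) ∧
  (Odd (cntU (X.B L) (L.geo (T.P.F 1)) (pq X L (T.P.F 1) (T.D.pa T.P T.w r n 1) q) k
    fun c => T.P.yo 1 c ∈ V) ↔ b)

omit h in
theorem Trk.Box.fin_emp (hV : T.Box V) (hE : T.Emp) (q : WW X κ r n →₀ ℝ) : T.End V q False := by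
  refine ⟨⟨fun c _ _ h => (hV.emp hE _ h rfl).elim, fun c _ _ _ _ h => hV.emp hE _ h rfl⟩, ?_⟩
  rw [cntU, Nat.card_eq_zero.2 (.inl ⟨by rintro ⟨c, -, -, h⟩; exact hV.emp hE _ h rfl⟩)]
  simp

theorem Trk.Box.fin_top [ConnectedSpace M] (hV : T.Box V) (hT : T.Top j) :
    ∀ᶠ J : Finset (SG X κ) in atTop, ∀ (n : ℕ) (g : Fin n → SG X κ), (∀ g' ∈ J, g' ∈ range g) →
      ∃ θ : WW X κ (j + 1 + n) n →₀ ℝ, ∀ᶠ ε in 𝓝[>] (0 : ℝ), T.End V (link g θ ε) True := by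
  obtain ⟨x, ξ, x1, x2, x3, x4, -, ⟨J₀, t1, t2⟩, x5⟩ := hT
  obtain ⟨e, he, hc⟩ := h.cmp T.P T.D T.w T.ok T.sm 0 0
  have hB := T.P.hB
  have hG := T.P.hG 1
  have h1 : (1 : ℝ) ∈ Icc (0 : ℝ) 1 := ⟨zero_le_one, le_rfl⟩
  have A : ∀ᶠ J : Finset (SG X κ) in atTop, ∀ l c, T.P.Sl (T.D.pa T.P T.w 0 0) k 0 1 l c →
      (∀ g ∈ J, c.sg (T.P.F 1) g.1 = 0) → T.P.yo 1 c ∈ closure V →
      l = 0 ∧ Cfg.Iso (X.B L) (T.P.F 1) c x := by
    refine ev_of_ult fun 𝒰 hU hn => ?_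
    obtain ⟨t, v, c, t₀, a1, c₀, l, l', a2, a6, a3, a7, a4, a5⟩ := hc.limJ (k := k) he hU
      (p := fun t l c => t = 1 ∧ T.P.yo 1 c ∈ closure V ∧
        ¬(l = 0 ∧ Cfg.Iso (X.B L) (T.P.F 1) c x)) (hn.mono fun J hJ => by
          simp only [not_forall] at hJ
          obtain ⟨l, c, b1, b2, b3, b4⟩ := hJ
          exact ⟨1, h1, l, c, b1, b2, rfl, b3, b4⟩)
    have e1 : ∀ᶠ J in (𝒰 : Filter (Finset (SG X κ))), t J = 1 := a2.mono fun _ hi => hi.2.2.1.1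
    obtain rfl : t₀ = 1 := tendsto_nhds_unique ((continuous_fst.tendsto _).comp a4)
      (tendsto_const_nhds.congr' (e1.mono fun _ hi => hi.symm))
    have b1 : T.P.yo 1 c₀ ∈ closure V := isClosed_closure.mem_of_tendsto a4
      (a2.mono fun J hi => hi.2.2.1.1 ▸ hi.2.2.1.2.1)
    obtain ⟨ζ, b2⟩ := a5 (hV.ne a3.1.sm b1)
    have b3 := x5 c₀ ζ a3.sol a3.le b2
      (by_contra fun e => hV.bad _ b1 ⟨1, h1, l', c₀, ζ, a3, b2, e, rfl⟩)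
    have b4 := iso_kap hB hG a3.1.toAdm x1.toAdm b3
    rw [x2, a3.2] at b4
    obtain rfl : l' = 0 := by exact_mod_cast (by linarith : (l' : ℝ) = 0)
    obtain rfl : l = 0 := by omega
    have b5 : ∀ᶠ J in (𝒰 : Filter (Finset (SG X κ))), T.P.Sl (T.D.pa T.P T.w 0 0) k 0 1 (v J) (c J) ∧
        ∀ g ∈ J, (c J).sg (T.P.F 1) g.1 = 0 := a2.mono fun J hi => hi.2.2.1.1 ▸ ⟨hi.1, hi.2.1⟩
    have b6 : SLim (X.B L) (𝒰 : Filter (Finset (SG X κ))) (fun _ => L.geo (T.P.F 1)) c c₀ := by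
      obtain ⟨W, Φ, z, d1, d2⟩ := a7 rfl
      exact ⟨W, Φ, z, (d1.and e1).mono fun J hJ => hJ.2 ▸ hJ.1, d2⟩
    have b7 := t1 _ 𝒰 c ((b5.and (hU (eventually_ge_atTop J₀))).mono fun J hJ =>
      ⟨hJ.1.1.sol, fun g hg => hJ.1.2 g (hJ.2 hg)⟩)
      (b6.congr hB hG (b5.mono fun _ hi => hi.1.1.toAdm) a3.1.toAdm x1.toAdm b3)
    obtain ⟨J, d1, d2⟩ := (a2.and b7).exists
    exact d1.2.2.1.2.2 ⟨d1.2.2.2, d2⟩
  filter_upwards [A, eventually_ge_atTop J₀] with J hJ hJ₀ n g hg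
  obtain ⟨θ, y, y1, y2, y3⟩ := t2 n g fun g' h' => hg g' (hJ₀ h')
  obtain ⟨e', he', hc'⟩ := h.cmp T.P T.D T.w T.ok T.sm (j + 1 + n) n
  have hA := (Pa.ad_op h.sz T.P e' (fun _ => 0) (γ := fun _ => 1) (fun _ _ => abs_one.le) _
    (by simpa using ad_link0 g θ he') ℝ _ _ (cv_link g θ (nhdsWithin_le_nhds (s := Ioi 0))))
  simp only [one_smul, zero_add] at hA
  have B : ∀ᶠ ε in 𝓝[>] (0 : ℝ), ∀ l c, T.P.Sl (T.D.pa T.P T.w _ _) k (link g θ ε) 1 l c →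
      T.P.yo 1 c ∈ V → l = 0 ∧ Cfg.Iso (X.B L) (T.P.F 1) c (y ε) ∧ Rig (X.B L) (L.geo (T.P.F 1))
        (pq X L (T.P.F 1) (T.D.pa T.P T.w _ _ 1) (link g θ ε)) c := by
    refine ev_of_ult fun 𝒰 hU hn => ?_
    have hn' : ∀ᶠ ε in (𝒰 : Filter ℝ), ∃ u : ℕ × Cfg M ι (κ ⊕ κ) (j + 1 + n),
        T.P.Sl (T.D.pa T.P T.w _ _) k (link g θ ε) 1 u.1 u.2 ∧ T.P.yo 1 u.2 ∈ V ∧
        ¬(u.1 = 0 ∧ Cfg.Iso (X.B L) (T.P.F 1) u.2 (y ε) ∧ Rig (X.B L) (L.geo (T.P.F 1))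
          (pq X L (T.P.F 1) (T.D.pa T.P T.w _ _ 1) (link g θ ε)) u.2) := hn.mono fun ε hε => by
      simp only [not_forall] at hε
      obtain ⟨l, c, b1, b2, b3⟩ := hε
      exact ⟨(l, c), b1, b2, b3⟩
    have := hn'.exists.choose_spec.nonempty
    obtain ⟨u, hu⟩ := hn'.choice
    obtain ⟨c₀, l, l', b1, b2, b3, b4, b5⟩ := hc'.ult (k := k) (v := fun ε => (u ε).1)
      (c := fun ε => (u ε).2) (tendsto_const_nhds (x := 1))
      (cv_link g θ (hU.trans nhdsWithin_le_nhds))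
      ((hu.and (hU hA)).mono fun ε hε => ⟨h1, Pa.Ad.bd hε.2 h1, hε.1.1⟩)
    have b6 : T.P.yo 1 c₀ ∈ closure V := mem_closure_of_tendsto
      ((b5 trivial).yo tendsto_const_nhds) (hu.mono fun ε hε => hε.2.1)
    obtain ⟨rfl, b7⟩ := hJ l' (fz c₀) (sl_fz b3).1
      (fun g' h' => let ⟨i, e⟩ := hg g' h'; e ▸ (sl_fz b3).2 i) (by rwa [yo_fz])
    obtain rfl : l = 0 := by omega
    obtain ⟨z, d1, d2⟩ := iso_wz b3.1.toAdm x1.toAdm b7
    obtain ⟨ε, d3, d4, d5⟩ := (hu.and (b1.and (y3 𝒰 (fun ε => (u ε).2) z hU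
      (hu.mono fun ε hε => hε.1.1) ((b4 rfl).congr hB hG (hu.mono fun ε hε => hε.1.1.toAdm)
        b3.1.toAdm d1 d2)))).exists
    exact d3.2.2 ⟨d4, d5⟩
  have C : ∀ᶠ ε in 𝓝[>] (0 : ℝ), T.P.yo 1 (y ε) ∈ V :=
    (tendsto_const_nhds.prodMk_nhds (tendsto_pi_nhds.2 y2)).eventually (hV.op.mem_nhds
      (hV.ga ⟨1, h1, 0, x, ξ, ⟨by rwa [pq_zero], by simpa using x2⟩, x3, x4, rfl⟩))
  refine ⟨θ, ?_⟩
  filter_upwards [B, C, y1] with ε hB' hC hy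
  refine ⟨⟨fun c a1 a2 a3 => (hB' 0 c ⟨a1, by simpa using a2⟩ a3).2.2,
    fun c l hl a1 a2 a3 => hl.ne' (hB' l c ⟨a1, a2⟩ a3).1⟩, iff_true_intro ?_⟩
  rw [cntU, Nat.card_eq_one_iff_exists.2 ⟨Quot.mk _ ⟨y ε, hy.1, hy.2.trans x2, hC⟩, by
    rintro ⟨c, a1, a2, a3⟩
    exact Quot.sound (hB' 0 c ⟨a1, by simpa using a2⟩ a3).2.1⟩]
  exact odd_one

end Crest.Agent.X212.Eq82
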