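import Crest.Agent.X212.Eq82.Wcv
import Crest.Agent.X212.Top68.Defs
import Crest.Agent.X212.Tan54.Main
import Crest.Agent.X212.Idg99.Num
import Crest.Agent.X212.Met55.Path

/-!
# Row 212, AN5: the top level from the Kuranishi model
-/

set_option autoImplicit false
set_option linter.unusedSectionVars false
noncomputable section
open scoped Manifold ContDiff Topology InnerProductSpace
open MeasureTheory Set Function Filter

namespace Crest.Agent.X212.Eq82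
open An Mod61 Abel74 Crest.Agent.R208.F
open Line51 (Ln)
open Dr59 (HR Cl)

variable {E : Type} [NormedAddCommGroup E] [NormedSpace ℝ E] [FiniteDimensional ℝ E]
  [MeasurableSpace E] [BorelSpace E]
  {HM : Type} [TopologicalSpace HM] {I : ModelWithCorners ℝ E HM} [I.Boundaryless]
  {M : Type} [TopologicalSpace M] [ChartedSpace HM M] [IsManifold I ∞ M]
  [MeasurableSpace M] [BorelSpace M] [SecondCountableTopology M] [T2Space M] [CompactSpace M]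
  {ι : Type} [Fintype ι] [DecidableEq ι] {κ : Type} [Fintype κ] [DecidableEq κ] {r n : ℕ}

section gen
variable {lam : Type} [Fintype lam] {B : Base M ι lam} {G : Geo I M ι lam}

/-- the opposite scalar equations -/
def ngS (τ : Pt M ι lam r n) : Pt M ι lam r n := ⟨τ.D, τ.C, fun c i => -τ.S c i⟩

theorem sol_ngS {τ : Pt M ι lam r n} {c : Cfg M ι lam r} : c.Sol B G (ngS τ) ↔ c.Sol B G τ :=
  ⟨fun h => ⟨h.toAdm, h.D, h.C, fun i => neg_eq_zero.1 (h.S i)⟩,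
    fun h => ⟨h.toAdm, h.D, h.C, fun i => neg_eq_zero.2 (h.S i)⟩⟩

theorem Rig.ngS {τ : Pt M ι lam r n} {c : Cfg M ι lam r} (h : Rig B G τ c) : Rig B G (ngS τ) c :=
  fun α φ w h1 h2 h3 h4 h5 h6 h7 h8 => h α φ w h1 h2 h3 h4 h5 h6 h7 fun i => by
    simpa [Eq82.ngS] using (h8 i).fun_neg

theorem SLim.fz {α : Type} {l : Filter α} {G : α → Geo I M ι lam} {c : α → Cfg M ι lam r}
    {x : Cfg M ι lam 0} {z : EuclideanSpace ℂ (Fin r)} (h : SLim B l G c (wz x z)) :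
    SLim B l G (fun i => fz (c i)) x :=
  let ⟨W, Φ, _, h1, h2, h3, _⟩ := h
  ⟨W, Φ, fun _ => x.z, h1.mono fun _ ⟨a, u, ζ, e⟩ => ⟨⟨a.ok, a.conn, a.sm, a.pos, .inl rfl⟩,
    u, ζ, e.m, e.W, e.Φ, Subsingleton.elim _ _⟩, h2, h3, tendsto_const_nhds⟩

variable (h4 : Module.finrank ℝ E ≤ 4) (hB : B.OK I) (hG : G.OK B)
include h4 hB hG

/-- the normalised terms are constant along abelian variations -/
theorem trig {c : Cfg M ι lam 0} {ξ : M → c.m.A} (a : c.Adm B G) (S : SPt G.F c ξ)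
    (h : TRig B G c ξ) {D : Ed M} (hD : D.OK G.F) (hN : D.Nm) (v : Fin D.N → ℝ) {u : M → ℝ}
    (hu : ∀ x, 1 / 2 ≤ u x ∧ u x ≤ 3 / 2 ∧ c.aws G.F D.L x = u x • ξ x) :
    Top68.TRig B G (D.pt B G.F v 0 0) c ξ := by
  intro b φ h1 h2 h3 h5 h6 h7 h8
  refine h b φ h1 h2 h3 h5 h6 (fun x => ?_) fun x t => ?_
  · convert h7 x using 1
    funext s
    simp [vD, Cfg.eD, pt0, Ed.pt, wpt, Ed.tm, Cfg.tD]
  have s1 : Sm I (Top68.tf b ξ) := fun y => Wz78.SA.toLp fun k => (h1 k y).smul (S.sm y)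
  have p1 : ∀ (s : ℝ) y, c.m.p1 B y (s • Top68.tf b ξ y) = s • Top68.tf b ξ y := fun s y => by
    have : c.m.p1 B y (Top68.tf b ξ y) = Top68.tf b ξ y := Spn45.p1_iff.2
      ⟨fun k => Submodule.smul_mem _ (b k y) (S.mem y), fun k => by
        change ∑ k', B.P k k' y • b k' y • ξ y = b k y • ξ y
        simp only [smul_smul, ← Finset.sum_smul, h2]⟩
    rw [map_smul, this]
  have s2 : ∀ s : ℝ, Sm I fun y => s • Top68.tf b ξ y := fun s =>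
    (contMDiff_const (I' := 𝓘(ℝ, ℝ)) (c := s)).smul s1
  have s3 : ∀ s : ℝ, Sm I fun y => s • φ y := fun s =>
    (contMDiff_const (I' := 𝓘(ℝ, ℝ)) (c := s)).smul h3
  have A : ∀ s, (var c (Top68.tf b ξ) φ 0 s).Adm B G := fun s =>
    ⟨a.ok, Spn45.isConn_addC a.ok a.conn (s2 s) (p1 s), a.sm.add (s3 s), fun y => by
      change c.m.pp B y (c.Φ y + s • φ y) = c.Φ y + s • φ y
      rw [map_add, map_smul, a.pos, h5], .inl rfl⟩
  have S' : ∀ s, SPt G.F (var c (Top68.tf b ξ) φ 0 s) ξ := fun s =>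
    ⟨⟨S.sm, S.mem, S.sq, fun k y => by
      refine Eq.trans ?_ (S.par k y)
      refine congrArg (_ + ·) (Wz78.opL_inj ?_)
      change opL (adc (c.W k y + opL (s • b k y • ξ y)) (ξ y)) = opL (adc (c.W k y) (ξ y))
      simp only [Wz78.opL_adc, map_smul, add_mul, mul_add, smul_mul_assoc, mul_smul_comm]
      abel⟩, fun y => by
      change opL (ξ y) (c.Φ y + s • φ y) = c.m.J (c.Φ y + s • φ y)
      simp only [map_add, map_smul, S.Φ, h6]⟩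
  have cv : ∀ {N : Type} [NormedAddCommGroup N] [NormedSpace ℝ N] {f : M → N}, Sm I f →
      Cmp73.Cv I (𝓝 (0 : ℝ)) univ (fun s y => s • f y) 0 := fun hf =>
    ((Cmp73.Cv.consts tendsto_id).smul (.fixed' hf)).congr' isOpen_univ
      (.of_forall fun _ _ _ => rfl) fun _ _ => (zero_smul _ _).symm
  have n : ∀ {s : ℝ}, ‖s • ξ x‖ ^ 2 = 16 * s ^ 2 := by
    intro s
    rw [norm_smul, mul_pow, norm_sq a.ok (S.mem x) (S.sq x), Real.norm_eq_abs, sq_abs, mul_comm]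
  have e : ∀ k, ∀ᶠ s in 𝓝 (0 : ℝ), (var c (Top68.tf b ξ) φ 0 s).tC B G.F (D.tm lam 0 0 k) x =
      c.m.p2 B x (WithLp.toLp 2 fun t => (D.f k x * G.F.D t.1 (D.g k) x * G.F.D t.2 (D.h k) x) •
        ξ x) := fun k => by
    have t1 : Tendsto (fun s => (var c (Top68.tf b ξ) φ 0 s).aws G.F D.L x) (𝓝 0)
        (𝓝 (c.aws G.F D.L x)) := tendsto_list_sum _ fun ζ hζ =>
      (aw_var h4 hB hG a _ s2 p1 s3 (fun s y => by rw [map_smul, h5]) (cv s1) (cv h3)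
        ((hD k).2.2.2.2.2 ζ hζ)).2.2.tendsto_at x
    obtain ⟨u', q⟩ : ∃ u' : ℝ → ℝ, ∀ s, @Eq c.m.A ((var c (Top68.tf b ξ) φ 0 s).aws G.F D.L x)
      (u' s • ξ x) := ⟨_, fun s => congrFun ((S' s).aws_eq (A s) Mp86.bumps_of_compact hB hG D.L) x⟩
    rw [funext q, (hu x).2.2] at t1
    have t2 := (t1.inner (𝕜 := ℝ) (tendsto_const_nhds (x := ξ x))).div_const 16
    simp only [real_inner_smul_left, S.toRed.inn a.ok, mul_div_assoc,
      div_self (show (16 : ℝ) ≠ 0 by norm_num), mul_one] at t2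
    filter_upwards [t2.eventually (Icc_mem_nhds (a := 1 / 4) (b := 2) (by linarith [(hu x).1])
      (by linarith [(hu x).2.1]))] with s hs
    simp only [Ed.tm, Cfg.tC, q]
    refine congrArg _ (congrArg _ (funext fun t => ?_))
    erw [n, smul_smul, mul_assoc, hN _ hs.1 hs.2, mul_one]
    rfl
  refine ((h8 x t).add_const ((∑ k, v k • c.m.p2 B x (WithLp.toLp 2 fun t =>
    (D.f k x * G.F.D t.1 (D.g k) x * G.F.D t.2 (D.h k) x) • ξ x)) t)).congr_of_eventuallyEq ?_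
  filter_upwards [eventually_all.2 e] with s hs
  simp only [vC, Cfg.eC, pt0, Ed.pt, wpt, hs, Pi.zero_apply, sub_zero, PiLp.sub_apply]
  exact (sub_add_cancel _ _).symm

end gen

variable {X : Bk I M ι} {L : Ln E M κ} {j : ℕ}

theorem lk_eq {F : Fr I M ι} (D : Ed M) (w : Fin D.N → ℝ) (g : Fin n → SG X κ) {K : ℕ}
    {T : Fin K → Tm M (κ ⊕ κ) (j + 1 + n) n} (v : Fin K → ℝ)
    (h : ∀ k, ∃ (u : Top68.LT M (κ ⊕ κ)) (i : Fin (j + 1 + n)), u.OK F ∧ T k = u.tm n i) :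
    ∃ θ, ∀ ε, pq X L F (D.pt (X.B L) F w _ _) (link g θ ε) =
      ngS (Top68.lk (X.B L) F (D.pt (X.B L) F w _ _) T v (fun i => (g i).1) ε) := by
  have h1 : ∀ k, ((T k).OK X.F ∧ Vz (T k)) ∧ ∀ c : Cfg M ι (κ ⊕ κ) _, c.tS F (T k) = 0 := fun k => by
    obtain ⟨u, i, hu, e⟩ := h k
    rw [e]
    cases u <;> exact ⟨⟨tm_fr X.F hu, trivial⟩, fun _ => rfl⟩
  refine ⟨∑ k, v k • Finsupp.single ⟨T k, (h1 k).1⟩ 1, fun ε => ?_⟩
  rw [pq, link, wq_add, wq_smul, sub_eq_add_neg, ← neg_one_smul ℝ, wq_add, wq_smul]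
  simp only [wq_sum, wq_smul, wq_single]
  have z : ∀ (c : Cfg M ι (κ ⊕ κ) (j + 1 + n)) (i : Fin n), c.tD (X.B L) F (.cut i 1 (g i).1) = 0 ∧
      c.tD (X.B L) F (.cz i 1 (Fin.natAdd (j + 1) i)) = 0 ∧ c.tC (X.B L) F (.cut i 1 (g i).1) = 0 ∧
      c.tC (X.B L) F (.cz i 1 (Fin.natAdd (j + 1) i)) = 0 := fun _ _ => ⟨rfl, rfl, rfl, rfl⟩
  have z' : ∀ (c : Cfg M ι (κ ⊕ κ) (j + 1 + n)) k, c.tS F (D.tm _ _ n k) = 0 := fun _ _ => rfl
  refine pt_ext (fun c x => ?_) (fun c x => ?_) fun c i => ?_ <;>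
    simp [Pt.add, sml, ngS, Top68.lk, Top68.cuts, wpt, Ed.pt, z, z', (h1 _).2, Finset.smul_sum,
      smul_smul, Finset.mul_sum]

theorem rig_iso' (hL : L.On I univ) (hm : MdsL X L) {F : Fr I M ι} (hF : X.Pos F) {D : Ed M}
    (hD : D.OK X.F) (v : Fin D.N → ℝ) (hr : 0 < r) {k : ℝ}
    (hk : 6 * k + X.d0 L + 2 * r - 2 * n - 2 = 0) {q : WW X κ r n →₀ ℝ} {c c' : Cfg M ι (κ ⊕ κ) r}
    (h : c.Sol (X.B L) (L.geo F) (pq X L F (D.pt (X.B L) F v r n) q))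
    (h' : c'.Sol (X.B L) (L.geo F) (pq X L F (D.pt (X.B L) F v r n) q))
    (h1 : c'.kap (X.B L) (L.geo F) = k) (h0 : c'.Φ ≠ 0) (e : Cfg.Iso (X.B L) F c c')
    (hr' : Rig (X.B L) (L.geo F) (pq X L F (D.pt (X.B L) F v r n) q) c') :
    Rig (X.B L) (L.geo F) (pq X L F (D.pt (X.B L) F v r n) q) c := by
  obtain ⟨P, p, -⟩ : ∃ P : Pa X L, P.F 0 = F ∧ True :=
    (Met55.exists_pa_const hL hF).imp fun _ h => ⟨h 0, trivial⟩
  subst p
  exact rig_iso (hm P D (fun _ => v) hD contDiff_const r n hr) hk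
    ⟨h, by rw [← iso_kap P.hB (P.hG 0) h.toAdm h'.toAdm e, h1]; simp⟩ ⟨h', by simpa using h1⟩
    (fun e' => h0 (funext fun x => norm_eq_zero.1 (by
      rw [iso_norm P.hB (P.hG 0) h.toAdm h'.toAdm e, e']; exact norm_zero))) e hr'

/-- **LEAF `TopL`** from the Kuranishi model -/
theorem topL [Nonempty M] (hL : L.On I univ) (hm : MdsL X L)
    (h : Top68.TopStmt I M ι (κ ⊕ κ)) : TopL X L := fun w K T => by
  classical
  have hB := B_ok X hL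
  have hG := G_ok hL T.pos
  have h4 := X.ok.h4.le
  have tp : Top68.TP (X.B L) (L.geo T.F) T.x T.ξ :=
    ⟨hB, hG, Cht98.exists_tame _ h4, T.sw.adm, T.sw.spt, T.ne⟩
  refine ⟨by simpa using Idg99.even_of_tan hL T.pos tp.ad tp.sp.toRed (Tan54.tan tp).2,
    fun D v u j hD hN hs hu hj => ?_⟩
  have hD' : D.OK T.F := fun k => tm_fr _ (hD k)
  obtain ⟨L₀, h1, h2, h3⟩ := h _ _ D v T.x T.ξ j tp hD' hs
    (trig h4 hB hG tp.ad tp.sp T.reg hD' hN v hu)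
    (Idg99.ix_cfg hL T.pos tp.ad (by push_cast; linarith))
  refine ⟨(L₀.attach.map fun s => (⟨s.1, sg_fr X.F (h1 s.1 s.2)⟩ : SG X κ)).toFinset,
    fun α l c hc => h2 α l c (hc.mono fun i hi => ⟨hi.1, fun s hs => hi.2 ⟨s, sg_fr _ (h1 s hs)⟩
      (List.mem_toFinset.2 (List.mem_map.2 ⟨⟨s, hs⟩, List.mem_attach _ _, rfl⟩))⟩), fun n g hg => ?_⟩
  obtain ⟨N, S, v', W, Φ, z, a1, a2, a3, a4, a5⟩ := h3 n (fun i => (g i).1)
    (fun i => sg_fr _ (g i).2) fun s hs => by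
      obtain ⟨i, e⟩ := hg ⟨s, sg_fr _ (h1 s hs)⟩
        (List.mem_toFinset.2 (List.mem_map.2 ⟨⟨s, hs⟩, List.mem_attach _ _, rfl⟩))
      exact ⟨i, congrArg Subtype.val e⟩
  obtain ⟨θ, e⟩ := lk_eq (X := X) (L := L) (F := T.F) D v g v' a1
  have b1 : ∀ᶠ ε in 𝓝[>] 0, Cfg.Sol ⟨T.x.m, W ε, Φ ε, z ε⟩ (X.B L) (L.geo T.F)
      (pq X L T.F (D.pt (X.B L) T.F v _ _) (link g θ ε)) ∧
      Cfg.kap ⟨T.x.m, W ε, Φ ε, z ε⟩ (X.B L) (L.geo T.F) = T.x.kap (X.B L) (L.geo T.F) :=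
    a2.mono fun ε k => ⟨by rw [e]; exact sol_ngS.2 k.1, by
      have u := Idg99.sm_base tp.ad.conn.cc.sm tp.ad.sm
      have := (Idg99.ind_d0 hL T.pos tp.ad.ok k.1.conn u).symm.trans
        (Idg99.ind_d0 hL T.pos tp.ad.ok tp.ad.conn u)
      exact mul_left_cancel₀ (show (6 : ℝ) ≠ 0 by norm_num) (add_right_cancel this)⟩
  refine ⟨θ, fun ε => ⟨T.x.m, W ε, Φ ε, z ε⟩, b1,
    ob_cv h4 hB hG tp.ad (a2.mono fun _ k => k.1.toAdm) a3 a4, fun l c z₀ hl hc hs' => ?_⟩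
  obtain ⟨x⟩ := ‹Nonempty M›
  filter_upwards [a5 ℝ l id c hl (hc.mono fun ε k => sol_ngS.1 (by rw [e] at k; exact k)) hs'.fz,
    hc, hl b1, hl a2, hl ((a4.pt x trivial).eventually_ne (T.ne x))] with ε k1 k2 k3 k4 k5
  refine ⟨k1, rig_iso' hL hm T.pos hD v (by omega) (by push_cast; linarith) k2 k3.1 k3.2
    (fun e' => k5 (congrFun e' x)) k1 ?_⟩
  rw [e]
  exact k4.2.ngS

end Crest.Agent.X212.Eq82
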