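import Crest.Agent.X212.Eq82.Core
import Crest.Agent.X212.Eq82.Top
import Crest.Agent.X212.Sm10.Nvf
import Crest.Agent.X212.Met55.Trk
import Crest.Agent.X212.Met55.Path
import Crest.Agent.X212.Nv3.Red
import Crest.Agent.X212.Mp86.Szl
import Crest.Agent.X212.Mp86.Swb
import Crest.Agent.X212.Idg99.Num
import Crest.Agent.X212.Abel74.Lab

/-!
# Row 212, AN5: the statement NV from the leaves
-/

set_option autoImplicit false
set_option linter.unusedSectionVars false
noncomputable section
open scoped Manifold ContDiff Topology InnerProductSpace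
open MeasureTheory Set Function Filter

namespace Crest.Agent.X212.Eq82
open An Mod61 Abel74 Crest.Agent.R208.F
open Line51 (Ln)
open Dr59 (HR Cl)

variable {E : Type} [NormedAddCommGroup E] [NormedSpace ℝ E] [FiniteDimensional ℝ E]
  [MeasurableSpace E] [BorelSpace E]
  {HM : Type} [TopologicalSpace HM] {I : ModelWithCorners ℝ E HM} [I.Boundaryless]
  {M : Type} [TopologicalSpace M] [ChartedSpace HM M] [IsManifold I ∞ M]
  [MeasurableSpace M] [BorelSpace M] [SecondCountableTopology M] [T2Space M] [CompactSpace M]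
  {ι : Type} [Fintype ι] [DecidableEq ι] {κ : Type} [Fintype κ] [DecidableEq κ] {r n : ℕ}

variable (X : Bk I M ι)

/-- **NV** from the leaves -/
theorem mainStmt : MainStmt X := fun h2 h =>
  Sm10.finS X (fun κ _ _ L hL => ⟨h.ln κ L hL, Met55.trkS X hL h2 (h.ln κ L hL), Met55.asdS X hL,
    Nv3.redS X L, coreS (h.ln κ L hL) (Met55.asdS X hL)⟩) h.swb h.taub

/-- the leaves of a line from the three analytic ones -/
theorem leafL [ConnectedSpace M] {L : Ln E M κ} (hL : L.On I univ) (h1 : CmpL X L) (h2 : MdsL X L)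
    (h3 : TopL X L) : LeafL X L :=
  ⟨h1, h2, Mp86.szL, Mp86.aprL hL, Abel74.nrmL X hL, Abel74.sepL X hL, Idg99.intL X hL, obnL X hL,
    Met55.pathL X hL, h3⟩

/-- **NV** from the four analytic leaves -/
theorem nv_of [ConnectedSpace M] (h2 : 2 ≤ Num57.bp X.ok.ori)
    (h : ∀ (κ : Type) [Fintype κ] [DecidableEq κ] (L : Ln E M κ), L.On I univ →
      CmpL X L ∧ MdsL X L ∧ Top68.TopStmt I M ι (κ ⊕ κ)) (ht : TaubL X) : NV X :=
  mainStmt X h2 ⟨fun κ _ _ L hL => leafL X hL (h κ L hL).1 (h κ L hL).2.1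
    (topL hL (h κ L hL).2.1 (h κ L hL).2.2), Mp86.swbL X, ht⟩

end Crest.Agent.X212.Eq82
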