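import Crest.Agent.X212.An.Strat

/-!
# Row 212, AN5: invariance of the count along a path (abstract form)

`res` restricts a moduli problem to an open saturated set.  `Pth` is a path of problems, one for
each level `l` (the number of bubbles); the perturbation terms vanish at the two ends.
-/

set_option autoImplicit false
set_option linter.unusedSectionVars false
noncomputable section
open Set Filter Topology Function

namespace Crest.Agent.X212.Eq82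
open Mod61 An

variable {W : Type}

/-- restriction to the part where `U` holds -/
def res (Q : Prob W) (U : Q.X → Prop) : Prob W := { Q with In := fun x => Q.In x ∧ U x }

theorem res_ax {Q : Prob W} {Adm Adm' : (W →₀ ℝ) → Prop} (h : Q.Ax Adm) (hA : ∀ q, Adm' q → Adm q)
    {U : Q.X → Prop} (hs : ∀ x y, Q.eqv x y → Q.In x → U x → U y)
    (ho : ∀ q x, Adm' q → Q.Sol q x → U x → ∀ᶠ y in Q.Near x, Q.Sol q y → U y) :
    (res Q U).Ax Adm' where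
  isOpen := h.isOpen
  inv := h.inv
  sm0 := h.sm0
  smτ := h.smτ
  mem x hx := h.mem x hx.1
  in_eqv x y e hx := ⟨h.in_eqv x y e hx.1, hs x y e hx.1 hx.2⟩
  cont := h.cont
  act := h.act
  orb o y y' h1 h2 := h.orb o y y' h1.1 h2.1
  tr x x' hx e := h.tr x x' hx.1 e
  slc q x ha hx := by
    obtain ⟨D, h1, h2, h3⟩ := h.slc q x (hA q ha) ⟨hx.1.1, hx.2⟩
    obtain ⟨N, hN, hsub⟩ := Q.mem_near.1 (ho q x ha ⟨hx.1.1, hx.2⟩ hx.1.2)
    refine ⟨D, h1, h2, ?_⟩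
    filter_upwards [h3, hN] with v hv hvN h4 h5
    obtain ⟨y, rfl, h6⟩ := hv h4 h5
    exact ⟨y, rfl, h6, hsub ⟨y, hvN, Q.eqv.refl _⟩ ⟨h6, h4⟩⟩
  cl := fun o : Q.O => (h.cl o).mono (by
    rintro v ⟨g, y, h1, h2⟩
    exact ⟨g, y, h1.1, h2⟩)

theorem res_sol {Q : Prob W} {U : Q.X → Prop} {q : W →₀ ℝ} {x : Q.X} :
    (res Q U).Sol q x ↔ Q.Sol q x ∧ U x :=
  ⟨fun h => ⟨⟨h.1.1, h.2⟩, h.1.2⟩, fun h => ⟨⟨h.1.1, h.2⟩, h.1.2⟩⟩

/-- a path of problems; `Q l` is the problem after `l` bubbles -/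
structure Pth (W : Type) : Type 1 where
  Q : ℕ → Prob W
  tc : ∀ l o, (Q l).C o →L[ℝ] ℝ

namespace Pth
variable (P : Pth W)

/-- the parameter -/
def par {l : ℕ} (x : (P.Q l).X) : ℝ := P.tc l x.1 ((P.Q l).pt x.2)

/-- the solutions over `[0,1]` -/
def K (l : ℕ) (q : W →₀ ℝ) : Set (P.Q l).X := {x | (P.Q l).Sol q x ∧ 0 ≤ P.par x ∧ P.par x ≤ 1}

/-- regular inside the slice `t = const` -/
def Tr {l : ℕ} (q : W →₀ ℝ) (x : (P.Q l).X) : Prop :=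
  Surjective ((fderiv ℝ ((P.Q l).F x.1 q) ((P.Q l).pt x.2)).prod (P.tc l x.1))

/-- the unperturbed top solutions over the parameter `a` -/
def End (a : ℝ) : Set (P.Q 0).X := {x | (P.Q 0).Sol 0 x ∧ P.par x = a}

structure Ax (Adm : (W →₀ ℝ) → Prop) : Prop where
  ax : ∀ l, (P.Q l).Ax Adm
  n0 : (P.Q 0).n = 1
  nl : ∀ l, 0 < l → (P.Q l).n < 0
  op : St.IsOp Adm
  tc_g : ∀ o (g : (P.Q 0).G o), ∀ v ∈ (P.Q 0).U o, P.tc 0 o (g • v) = P.tc 0 o v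
  tc_e : ∀ x y : (P.Q 0).X, (P.Q 0).In x → (P.Q 0).eqv x y → P.par x = P.par y
  tc_ne : ∀ x : (P.Q 0).X, P.tc 0 x.1 ≠ 0
  van : ∀ l o w, ∀ v ∈ (P.Q l).U o, P.tc l o v = 0 ∨ P.tc l o v = 1 → (P.Q l).τ o w v = 0
  dens : ∀ l q, Adm q → ∀ x ∈ P.K l q, 0 < P.par x → P.par x < 1 → ∃ J, (P.Q l).Onto q x J
  bdd : ∃ L, ∀ l q, Adm q → (P.K l q).Nonempty → l ≤ L
  comp : ∀ l q₀, Adm q₀ → ∀ (ι : Type) (𝒰 : Ultrafilter ι) (q : ι → W →₀ ℝ)
    (u : ι → (P.Q l).X), St.Cv (𝒰 : Filter ι) q q₀ →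
    (∀ᶠ i in (𝒰 : Filter ι), Adm (q i) ∧ u i ∈ P.K l (q i)) →
    (∃ x₀ ∈ P.K l q₀, Tendsto u 𝒰 ((P.Q l).Near x₀)) ∨ ∃ l', l < l' ∧ (P.K l' q₀).Nonempty

variable {P} {Adm : (W →₀ ℝ) → Prop}

theorem Tr.reg {l : ℕ} {q : W →₀ ℝ} {x : (P.Q l).X} (h : P.Tr q x) : (P.Q l).Reg q x :=
  surj_of_surj_prod h

namespace Ax
variable (h : P.Ax Adm)
include h

theorem F_end {l : ℕ} {o : (P.Q l).O} (q : W →₀ ℝ) {v : (P.Q l).C o} (hv : v ∈ (P.Q l).U o)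
    (ht : P.tc l o v = 0 ∨ P.tc l o v = 1) : (P.Q l).F o q v = (P.Q l).F o 0 v := by
  simp only [Prob.F, Finsupp.sum, h.van l o _ v hv ht, smul_zero, Finset.sum_const_zero]

theorem sol_end {l : ℕ} (q : W →₀ ℝ) {x : (P.Q l).X} (ht : P.par x = 0 ∨ P.par x = 1) :
    (P.Q l).Sol q x ↔ (P.Q l).Sol 0 x :=
  and_congr_right fun hx => by rw [h.F_end q ((h.ax l).mem x hx) ht]

theorem fderiv_end {l : ℕ} {o : (P.Q l).O} (q : W →₀ ℝ) {v : (P.Q l).C o}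
    (hv : v ∈ (P.Q l).U o) (ht : P.tc l o v = 0 ∨ P.tc l o v = 1) {u : (P.Q l).C o}
    (hu : P.tc l o u = 0) :
    fderiv ℝ ((P.Q l).F o q) v u = fderiv ℝ ((P.Q l).F o 0) v u := by
  have hc : HasDerivAt (fun s : ℝ => v + s • u) u 0 := by
    simpa using ((hasDerivAt_id (0 : ℝ)).smul_const u).const_add v
  have e0 : v + (0 : ℝ) • u = v := by simp
  have key : ∀ q' : W →₀ ℝ, HasDerivAt (fun s : ℝ => (P.Q l).F o q' (v + s • u))
      (fderiv ℝ ((P.Q l).F o q') v u) 0 := fun q' =>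
    HasFDerivAt.comp_hasDerivAt_of_eq (0 : ℝ) ((h.ax l).strictF q' hv).hasFDerivAt hc e0.symm
  have hU : ∀ᶠ s : ℝ in 𝓝 0, v + s • u ∈ (P.Q l).U o :=
    hc.continuousAt.preimage_mem_nhds (by rw [e0]; exact ((h.ax l).isOpen o).mem_nhds hv)
  refine (key q).unique ((key 0).congr_of_eventuallyEq (hU.mono fun s hs => ?_))
  refine h.F_end q hs ?_
  rwa [map_add, map_smul, hu, smul_zero, add_zero]

theorem tr_end (q : W →₀ ℝ) {x : (P.Q 0).X} (hx : (P.Q 0).In x)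
    (ht : P.par x = 0 ∨ P.par x = 1) (hr : P.Tr 0 x) : P.Tr q x := by
  obtain ⟨w, hw⟩ : ∃ w, P.tc 0 x.1 w ≠ 0 := by
    by_contra hn
    exact h.tc_ne x (ContinuousLinearMap.ext fun u => by simpa using not_exists.1 hn u)
  rintro ⟨f, r⟩
  obtain ⟨u, hu⟩ := hr (f - (r / P.tc 0 x.1 w) • fderiv ℝ ((P.Q 0).F x.1 q) ((P.Q 0).pt x.2) w, 0)
  have h1 := congrArg Prod.fst hu
  have h2 : P.tc 0 x.1 u = 0 := congrArg Prod.snd hu
  refine ⟨u + (r / P.tc 0 x.1 w) • w, ?_⟩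
  rw [ContinuousLinearMap.prod_apply, map_add, map_add, map_smul, map_smul, h2,
    h.fderiv_end q ((h.ax 0).mem x hx) ht h2]
  simp only [ContinuousLinearMap.prod_apply] at h1
  rw [h1]
  simp [hw]

end Ax

/-- the strata -/
def st (P : Pth W) (Adm : (W →₀ ℝ) → Prop) (L : ℕ) : St W where
  S := Fin (L + 1)
  X s := (P.Q s).X
  Sol s q x := x ∈ P.K s q
  P s := P.Q s
  pr x := x
  rank s := L - s
  Adm := Adm

namespace Ax
variable (h : P.Ax Adm)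
include h

theorem st_ax {L : ℕ} (hL : ∀ l q, Adm q → (P.K l q).Nonempty → l ≤ L)
    (hr : ∀ a, a = 0 ∨ a = 1 → ∀ x ∈ P.End a, P.Tr 0 x)
    (he : ∀ l, 0 < l → ∀ x ∈ P.K l 0, P.par x ≠ 0 ∧ P.par x ≠ 1) : (P.st Adm L).Ax where
  fin := inferInstanceAs (Finite (Fin (L + 1)))
  ax := fun s : Fin (L + 1) => h.ax s
  adm := h.op
  sol _ _ _ _ hx := hx.1
  dens := by
    rintro ⟨l, hl⟩ q x ha hx
    by_cases ht : P.par x = 0 ∨ P.par x = 1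
    · have h0 := (h.sol_end q ht).1 hx.1
      rcases Nat.eq_zero_or_pos l with rfl | hl0
      · exact Or.inl (h.tr_end q hx.1.1 ht (hr _ ht x ⟨h0, rfl⟩)).reg
      · have := he l hl0 x ⟨h0, hx.2⟩
        exact (ht.elim this.1 this.2).elim
    · exact Or.inr (h.dens l q ha x hx (hx.2.1.lt_of_ne fun e => ht (Or.inl e.symm))
        (hx.2.2.lt_of_ne fun e => ht (Or.inr e)))
  comp := by
    rintro ⟨l, hl⟩ q₀ ha hg ι 𝒰 q u hq hu
    rcases h.comp l q₀ ha ι 𝒰 q u hq hu with ⟨x₀, h1, h2⟩ | ⟨l', h1, x, hx⟩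
    · exact Or.inr ⟨x₀, h1, h2⟩
    · have h2 := hL l' q₀ ha ⟨x, hx⟩
      have h3 := hg ⟨l', by omega⟩ (by show L - l' < L - l; omega) x hx
      exact absurd ((h.ax l').nonneg ha hx.1 h3) (not_le.2 (h.nl l' (by omega)))

/-- **Invariance along a path.** -/
theorem lstar (h0 : Adm 0) (hr : ∀ a, a = 0 ∨ a = 1 → ∀ x ∈ P.End a, P.Tr 0 x)
    (he : ∀ l, 0 < l → ∀ x ∈ P.K l 0, P.par x ≠ 0 ∧ P.par x ≠ 1) :
    Finite ((P.Q 0).Cl (P.End 0)) ∧ Finite ((P.Q 0).Cl (P.End 1)) ∧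
      Even ((P.Q 0).cnt (P.End 0) + (P.Q 0).cnt (P.End 1)) := by
  obtain ⟨L, hL⟩ := h.bdd
  obtain ⟨q, ha, -, hg⟩ := (h.st_ax hL hr he).exists_good St.isOp_true h0 trivial
  have hemp : ∀ l, 0 < l → ¬ (P.K l q).Nonempty := by
    rintro l hl ⟨x, hx⟩
    have h2 := hL l q ha ⟨x, hx⟩
    exact absurd ((h.ax l).nonneg ha hx.1 (hg ⟨l, by omega⟩ x hx)) (not_le.2 (h.nl l hl))
  let t : Bool → ∀ o, (P.Q 0).C o → ℝ := fun b o v => cond b (1 - P.tc 0 o v) (P.tc 0 o v)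
  have hmem : ∀ x : (P.Q 0).X, (∀ b, 0 ≤ t b x.1 ((P.Q 0).pt x.2)) ↔ 0 ≤ P.par x ∧ P.par x ≤ 1 :=
    fun x => ⟨fun hx => ⟨hx false, sub_nonneg.1 (hx true)⟩, fun hx b => by
      cases b
      · exact hx.1
      · exact sub_nonneg.2 hx.2⟩
  have hS := (h.ax 0).stokes ha h.n0 t
    (fun b o => by
      cases b
      · exact (P.tc 0 o).continuous.continuousOn
      · exact (continuous_const.sub (P.tc 0 o).continuous).continuousOn)
    (fun b o g v hv => by simp only [t, h.tc_g o g v hv])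
    (fun b x y hx e => by
      have := h.tc_e x y hx e
      simp only [Pth.par] at this
      simp only [t, this])
    (fun ι 𝒰 u hu => by
      rcases h.comp 0 q ha ι 𝒰 (fun _ => q) u (St.cv_const _ q)
        (hu.mono fun i hi => ⟨ha, hi.1, (hmem _).1 hi.2⟩) with ⟨x₀, h1, h2⟩ | ⟨l', h1, h2⟩
      · exact ⟨x₀, ⟨h1.1, (hmem _).2 h1.2⟩, h2⟩
      · exact (hemp l' h1 h2).elim)
    (fun x hx hb => ⟨hg ⟨0, by omega⟩ x ⟨hx, (hmem x).1 hb⟩, fun b h1 => by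
      cases b
      · have h2 : P.par x = 0 ∨ P.par x = 1 := Or.inl h1
        exact ⟨P.tc 0 x.1, (P.tc 0 x.1).hasStrictFDerivAt,
          h.tr_end q hx.1 h2 (hr _ h2 x ⟨(h.sol_end q h2).1 hx, rfl⟩)⟩
      · have h2 : P.par x = 0 ∨ P.par x = 1 := Or.inr (sub_eq_zero.1 h1).symm
        refine ⟨-P.tc 0 x.1, (P.tc 0 x.1).hasStrictFDerivAt.const_sub 1, ?_⟩
        rintro ⟨f, r⟩
        obtain ⟨u, hu⟩ := h.tr_end q hx.1 h2 (hr _ h2 x ⟨(h.sol_end q h2).1 hx, rfl⟩) (f, -r)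
        have h4 := congrArg Prod.fst hu
        have h3 : P.tc 0 x.1 u = -r := congrArg Prod.snd hu
        refine ⟨u, Prod.ext h4 ?_⟩
        simp [h3]⟩)
    (fun x _ _ b b' h1 h2 => by
      cases b <;> cases b' <;> simp only [t, cond_true, cond_false] at h1 h2 <;>
        first | rfl | (exfalso; linarith))
  have e0 : {x : (P.Q 0).X | (P.Q 0).Sol q x ∧ (∀ j, 0 ≤ t j x.1 ((P.Q 0).pt x.2)) ∧
      t false x.1 ((P.Q 0).pt x.2) = 0} = P.End 0 := by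
    ext x
    refine ⟨fun hx => ⟨(h.sol_end q (Or.inl hx.2.2)).1 hx.1, hx.2.2⟩, fun hx =>
      ⟨(h.sol_end q (Or.inl hx.2)).2 hx.1, (hmem x).2 (by rw [hx.2]; norm_num), hx.2⟩⟩
  have e1 : {x : (P.Q 0).X | (P.Q 0).Sol q x ∧ (∀ j, 0 ≤ t j x.1 ((P.Q 0).pt x.2)) ∧
      t true x.1 ((P.Q 0).pt x.2) = 0} = P.End 1 := by
    ext x
    refine ⟨fun hx => ?_, fun hx => ⟨(h.sol_end q (Or.inr hx.2)).2 hx.1,
      (hmem x).2 (by rw [hx.2]; norm_num), sub_eq_zero.2 hx.2.symm⟩⟩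
    have h2 : P.par x = 1 := (sub_eq_zero.1 hx.2.2).symm
    exact ⟨(h.sol_end q (Or.inr h2)).1 hx.1, h2⟩
  refine ⟨e0 ▸ hS.1 false, e1 ▸ hS.1 true, ?_⟩
  have h5 := hS.2
  rw [Fintype.sum_bool, e0, e1, add_comm] at h5
  exact h5

end Ax
end Pth

end Crest.Agent.X212.Eq82
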