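import Crest.Agent.X212.Eq82.Box

/-!
# Row 212, AN5: the steps of the proof of `NV`
-/

set_option autoImplicit false
set_option linter.unusedSectionVars false
noncomputable section
open scoped Manifold ContDiff Topology InnerProductSpace
open MeasureTheory Set Function Filter

namespace Crest.Agent.X212.Eq82
open An Mod61 Abel74 Crest.Agent.R208.F
open Line51 (Ln)
open Dr59 (HR Cl)

variable {E : Type} [NormedAddCommGroup E] [NormedSpace ℝ E] [FiniteDimensional ℝ E]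
  [MeasurableSpace E] [BorelSpace E]
  {HM : Type} [TopologicalSpace HM] {I : ModelWithCorners ℝ E HM} [I.Boundaryless]
  {M : Type} [TopologicalSpace M] [ChartedSpace HM M] [IsManifold I ∞ M]
  [MeasurableSpace M] [BorelSpace M] [SecondCountableTopology M] [T2Space M] [CompactSpace M]
  {ι : Type} [Fintype ι] [DecidableEq ι] {κ : Type} [Fintype κ] [DecidableEq κ] {r n : ℕ}

variable (X : Bk I M ι) (L : Ln E M κ)

/-- a track for the label `a` below the level `k`: from `(X.F, 0)` to its end at `t = 1` -/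
structure Trk (k : ℝ) (a : H2 I M) where
  P : Pa X L
  D : Ed M
  w : ℝ → Fin D.N → ℝ
  ok : D.OK X.F
  sm : ContDiff ℝ ∞ w
  F0 : P.F 0 = X.F
  w0 : w 0 = 0
  wall : ∀ t ∈ Ico (0 : ℝ) 1, ∀ (c : Cfg M ι (κ ⊕ κ) 0) (ξ : M → c.m.A),
    c.Sol (X.B L) (L.geo (P.F t)) (D.pa P w 0 0 t) → c.kap (X.B L) (L.geo (P.F t)) ≤ k →
    SPt (P.F t) c ξ → lab (P.F t) c ξ = a → c.Φ ≠ 0

variable {X L} in
/-- no point with the label at the end -/
def Trk.Emp {k : ℝ} {a : H2 I M} (T : Trk X L k a) : Prop :=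
  ∀ (c : Cfg M ι (κ ⊕ κ) 0) (ξ : M → c.m.A),
    c.Sol (X.B L) (L.geo (T.P.F 1)) (T.D.pa T.P T.w 0 0 1) →
    c.kap (X.B L) (L.geo (T.P.F 1)) ≤ k → SPt (T.P.F 1) c ξ → lab (T.P.F 1) c ξ ≠ a

variable {X L} in
/-- one point with the label at the end, of the top level -/
def Trk.Top {k : ℝ} {a : H2 I M} (T : Trk X L k a) (j : ℕ) : Prop :=
  ∃ (x : Cfg M ι (κ ⊕ κ) 0) (ξ : M → x.m.A),
    x.Sol (X.B L) (L.geo (T.P.F 1)) (T.D.pa T.P T.w 0 0 1) ∧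
    x.kap (X.B L) (L.geo (T.P.F 1)) = k ∧ SPt (T.P.F 1) x ξ ∧ lab (T.P.F 1) x ξ = a ∧ x.Φ ≠ 0 ∧
    TopAt X L (T.P.F 1) (T.D.pt (X.B L) (T.P.F 1) (T.w 1)) x j ∧
    ∀ (c : Cfg M ι (κ ⊕ κ) 0) (ζ : M → c.m.A),
      c.Sol (X.B L) (L.geo (T.P.F 1)) (T.D.pa T.P T.w 0 0 1) →
      c.kap (X.B L) (L.geo (T.P.F 1)) ≤ k → SPt (T.P.F 1) c ζ → lab (T.P.F 1) c ζ = a →
      Cfg.Iso (X.B L) (T.P.F 1) c x

/-- the labels of the unperturbed points of type S of the levels `k - l` -/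
def Lb (k : ℝ) : Set (H2 I M) := {b | ∃ (c : Cfg M ι (κ ⊕ κ) 0) (ξ : M → c.m.A) (l : ℕ),
  c.Sol (X.B L) (L.geo X.F) (pt0 (n := 0)) ∧ c.kap (X.B L) (L.geo X.F) = k - l ∧ SPt X.F c ξ ∧
    lab X.F c ξ = b}

/-- arbitrarily small good data whose count is odd iff `b` -/
def Par (r n : ℕ) (k : ℝ) (b : Prop) : Prop := ∀ e > (0 : ℝ), ∃ q : WW X κ r n →₀ ℝ,
  Bd (X.B L) (L.geo X.F) (wq (X.B L) X.F q) e ∧
  Good (X.B L) (L.geo X.F) (wq (X.B L) X.F q) k (fun _ => True) ∧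
  (Odd (cntU (X.B L) (L.geo X.F) (wq (X.B L) X.F q) k fun _ => True) ↔ b)

/-- STEP TRK: a track to the abelian equations with the form `η` on the frame `F` -/
def TrkS : Prop := ∀ (F : Fr I M ι) (η : M → Ext E) (k R : ℝ) (a : H2 I M), X.Pos F →
  η ∈ Num57.Om I M 2 → k < 0 → a ≠ 0 → ∃ T : Trk X L k a, T.P.F 1 = F ∧ T.D.Nm ∧
    (∀ (c : Cfg M ι (κ ⊕ κ) 0) (ξ : M → c.m.A),
      c.Sol (X.B L) (L.geo F) (T.D.pt (X.B L) F (T.w 1) 0 0) → c.kap (X.B L) (L.geo F) ≤ k →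
      SPt F c ξ → lab F c ξ = a → SWs (X.B L) (L.geo F) (cmp F η) c ξ) ∧
    ∀ (c : Cfg M ι (κ ⊕ κ) 0) (ξ : M → c.m.A), SWs (X.B L) (L.geo F) (cmp F η) c ξ →
      lab F c ξ = a → ∫ x, ‖c.m.Fg F c.W x‖ ^ 2 ∂F.μ ≤ R →
      c.Sol (X.B L) (L.geo F) (T.D.pt (X.B L) F (T.w 1) 0 0) ∧
        ∃ u : M → ℝ, ∀ x, 1 / 2 ≤ u x ∧ u x ≤ 3 / 2 ∧ c.aws F T.D.L x = u x • ξ x

/-- STEP ASD: no instanton of negative level -/
def AsdS : Prop := ∀ F, X.Pos F → ∀ (r n : ℕ) (k : ℝ), k < 0 →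
  NoI (X.B L) (L.geo F) (pt0 : Pt M ι (κ ⊕ κ) r n) k

/-- STEP RED: one more variable, one more equation -/
def RedS : Prop := ∀ (r n : ℕ) (k : ℝ) (b : Prop), 0 < r → Par X L r n k b →
  Par X L (r + 1) (n + 1) k b

/-- STEP CORE: the link datum and its boxes -/
def CoreS : Prop := ∀ (k : ℝ) (j : ℕ), k < 0 → 6 * k + X.d0 L + 2 * j = 0 → (Lb X L k).Finite ∧
  ∀ (A : Type) [Finite A] (a : A → H2 I M) (T : ∀ i, Trk X L k (a i)) (tp : A → Prop),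
    (∀ i, ¬tp i → (T i).Emp) → (∀ i, tp i → (T i).Top j) → (∀ i i', tp i → tp i' → i = i') →
    ((∀ i i', a i = a i' → tp i → tp i') ∧
    (Injective a → Lb X L k ⊆ range a → ∀ n₀, ∃ n ≥ n₀, Par X L (j + 1 + n) n k (∃ i, tp i)))

/-- STEP MAIN: arithmetic and assembly -/
def FinS : Prop := (∀ (κ : Type) [Fintype κ] [DecidableEq κ] (L : Ln E M κ), L.On I univ →
  LeafL X L ∧ TrkS X L ∧ AsdS X L ∧ RedS X L ∧ CoreS X L) → SwbL X → TaubL X → NV X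

end Crest.Agent.X212.Eq82
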