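import Crest.Agent.X212.Eq82.Lnk
import Crest.Agent.X212.Eq82.Obn
import Crest.Agent.X212.Mon62.Inst
import Crest.Agent.X212.Eqv71.Obn
import Crest.Agent.X212.Spn45.Aff

/-!
# Row 212, AN5: words depend continuously on the configuration
-/

set_option autoImplicit false
set_option linter.unusedSectionVars false
noncomputable section
open scoped Manifold ContDiff Topology InnerProductSpace
open MeasureTheory Set Function Filter

namespace Crest.Agent.X212.Eq82
open An Mod61 Abel74 Crest.Agent.R208.F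
open Line51 (Ln)
open Dr59 (HR Cl)

variable {E : Type} [NormedAddCommGroup E] [NormedSpace ℝ E] [FiniteDimensional ℝ E]
  [MeasurableSpace E] [BorelSpace E]
  {HM : Type} [TopologicalSpace HM] {I : ModelWithCorners ℝ E HM} [I.Boundaryless]
  {M : Type} [TopologicalSpace M] [ChartedSpace HM M] [IsManifold I ∞ M]
  [MeasurableSpace M] [BorelSpace M] [SecondCountableTopology M] [T2Space M] [CompactSpace M]
  {ι : Type} [Fintype ι] [DecidableEq ι] {κ : Type} [Fintype κ] [DecidableEq κ] {r n : ℕ}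

variable {lam : Type} [Fintype lam] {B : Base M ι lam} {G : Geo I M ι lam}

/-- the constant family -/
def cfam (B : Base M ι lam) (G : Geo I M ι lam) : Fam I M ι lam ℝ :=
  ⟨B, G.F, G, fun _ => G, univ, fun _ x a b => B.P a b x, fun _ x a b => B.P a b x,
    fun _ _ _ _ _ => 0, fun _ _ _ => 0, univ, univ⟩

theorem cfam_W0 {m : Md M ι lam} {A : m.Cn} (C : m.IsConn B G A) (t : ℝ) :
    (cfam B G).W0 m A t = A :=
  funext fun a => funext fun x => by simpa [Fam.W0, cfam] using C.cc.proj a x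

section uc
variable {α : Type} {l : Filter α} {V : Type} [NormedAddCommGroup V] [InnerProductSpace ℝ V]
  {u v : α → M → V} {u₀ v₀ : M → V}

/-- uniform convergence of continuous functions -/
def Uc (l : Filter α) (u : α → M → V) (u₀ : M → V) : Prop :=
  (∀ i, Continuous (u i)) ∧ Continuous u₀ ∧ TendstoUniformly u u₀ l

theorem Uc.int (hu : Uc l u u₀) (hv : Uc l v v₀) (μ : Measure M) [IsFiniteMeasureOnCompacts μ] :
    Tendsto (fun i => ∫ x, ⟪u i x, v i x⟫_ℝ ∂μ) l (𝓝 (∫ x, ⟪u₀ x, v₀ x⟫_ℝ ∂μ)) := by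
  have h := continuousOn_integral_of_compact_support (μ := μ) (s := univ)
    (f := fun (p : C(M, V) × C(M, V)) x => ⟪p.1 x, p.2 x⟫_ℝ) isCompact_univ
    (Continuous.continuousOn (by unfold uncurry; fun_prop)) fun _ _ _ h => (h trivial).elim
  have k : ∀ {u : α → M → V} {u₀ : M → V} (h : Uc l u u₀), Tendsto
      (fun i => (⟨u i, h.1 i⟩ : C(M, V))) l (𝓝 ⟨u₀, h.2.1⟩) := fun h =>
    ContinuousMap.tendsto_iff_tendstoUniformly.2 h.2.2
  exact ((continuousOn_univ.1 h).tendsto _).comp ((k hu).prodMk_nhds (k hv))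

end uc

variable (h4 : Module.finrank ℝ E ≤ 4) (hB : B.OK I) (hG : G.OK B)
include h4 hB hG

theorem cfam_ok : (cfam B G).OK := by
  have cb : ∀ {N : Type} [NormedAddCommGroup N] [NormedSpace ℝ N] {u : M → N}, Sm I u →
    Prm93.SB G.F.toPre (univ : Set ℝ) fun _ => u := fun h => .fixed (Sob92.Cb_of_compact h)
  have pp := fun (t : ℝ) (_ : t ∈ (univ : Set ℝ)) x => (hB.pr x).idem
  exact ⟨hB, hG, fun _ _ => hG, Cht98.exists_tame G.F h4, fun _ _ => Cht98.exists_tame G.F h4, rfl,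
    hG.P, fun a b c d => Sob92.Cb_of_compact (hB.so a b c d), Sob92.Cb_of_compact hB.sl, isOpen_univ,
    isClopen_univ, isClopen_univ, subset_rfl, fun _ _ a x => by
      simpa only [cfam, ← hG.P] using (G.F.P_e a x).symm, pp, pp, pp, pp,
    pp, pp, fun a b => cb (hB.sP a b), fun a b => cb (hB.sP a b), fun _ _ _ => cb contMDiff_const,
    fun _ => cb contMDiff_const, fun a b k => cb (G.F.c_sm a b k), fun a => cb (G.F.dv_sm a),
    fun a => cb (hG.con.sm a), ⟨fun _ _ => 1, cb contMDiff_const, fun _ _ => ⟨fun _ => one_pos, by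
      simp [cfam]⟩⟩, fun m A _ C t _ => (cfam_W0 C t).symm ▸ C⟩

variable {c : Cfg M ι lam r} {α : Type} {l : Filter α} [l.NeBot]

/-- words depend continuously on the configuration -/
theorem aw_var (a : c.Adm B G) {β : α → M → Fm ι c.m.A} {φ : α → M → c.m.V}
    (z : α → EuclideanSpace ℂ (Fin n)) (h1 : ∀ i, Sm I (β i))
    (h2 : ∀ i x, c.m.p1 B x (β i x) = β i x) (h3 : ∀ i, Sm I (φ i))
    (h5 : ∀ i x, c.m.pp B x (φ i x) = φ i x) (hβ : Cmp73.Cv I l univ β 0)
    (hφ : Cmp73.Cv I l univ φ 0) {ξ : AW M} (hξ : ξ.OK G.F) :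
    Uc l (fun i => Cfg.aw ⟨c.m, c.m.addC c.W (β i), fun x => c.Φ x + φ i x, z i⟩ G.F ξ)
      (c.aw G.F ξ) := by
  have h := cfam_ok h4 hB hG
  have hS := h.sup
  let o : Ref (cfam B G) :=
    { m := c.m, A0 := c.W, Φ0 := c.Φ, ok := a.ok, conn := a.conn
      cp := Sob92.Cb_of_compact a.ok.sp, cρ := fun b => Sob92.Cb_of_compact (a.ok.sρ b)
      cj := Sob92.Cb_of_compact a.ok.sj, cA := fun b => Sob92.Cb_of_compact (a.conn.cc.sm b)
      cΦ := Sob92.Cb_of_compact a.sm, pos := fun x => by simpa [cfam] using a.pos x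
      sb := by exact .fixed (Sob92.Cb_const 0) }
  have : o.B0 := ⟨rfl⟩
  let u : α → Sec I o.P1 := fun i => ⟨β i, h1 i, .of_compactSpace _, fun x => by
    have := h2 i x
    simp only [Ref.P1, Ref.Pg, cfam, indicator_univ]
    exact this⟩
  let v : α → Sec I o.Pp := fun i => ⟨φ i, h3 i, .of_compactSpace _, fun x => by
    simpa [Ref.Pp, cfam] using h5 i x⟩
  let y : Sec I o.P1 → Sec I o.Pp → Pnt o 0 := fun u v =>
    ⟨u.1, v.1, 0, 0, Hs_sec hS u, Hs_sec hS v, trivial⟩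
  have H := (((Mon62.hy_compact h o).cfOK (k := 7) (hk := by omega) le_rfl (y 0 0)).aw
    (Mon62.Dm.awU fun _ => hξ)).pure_compact (ε' := True) (by omega)
  obtain ⟨f, f1, f2⟩ := Mon62.out_dm (h := h) (hk := show 3 ≤ 7 by omega) (y₀ := y 0 0) (j := 8)
    (by omega) (q := fun _ => .id ℝ c.m.A)
    (w := (Mon62.cf h (show 3 ≤ 7 by omega) (y 0 0)).aw ξ ()) (Sob92.Cb_const _)
    (fun _ _ => rfl) H
  have k : ∀ {V : Type} [NormedAddCommGroup V] [InnerProductSpace ℝ V] [FiniteDimensional ℝ V]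
      {p : M → V →L[ℝ] V} (u : α → Sec I p), Cmp73.Cv I l univ (fun i => (u i).1) 0 →
      Tendsto (fun i => ofV G.F.toPre 8 p (u i).1) l (𝓝 (ofV G.F.toPre 8 p (0 : Sec I p).1)) := by
    intro V _ _ _ p u hu
    have := FiniteDimensional.complete ℝ V
    have e := fun u : Sec I p => Mon62.ofV_sec (F := G.F) hS (show 4 ≤ 8 by omega) u
    simp only [e, map_zero]
    refine tendsto_zero_iff_norm_tendsto_zero.2 ?_
    simpa only [Pre.norm_toH, sub_zero] using hu.nrm G.F.toPre 8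
  have t1 : Tendsto (fun i => (y (u i) (v i)).pt 7) l (𝓝 ((y 0 0).pt 7)) :=
    (k u hβ).prodMk_nhds ((k v hφ).prodMk_nhds tendsto_const_nhds)
  have t2 := Sob92.tendstoUniformly_val hS (show 4 ≤ 8 by omega)
    (((continuousOn_univ.1 (f1.continuousOn.mono fun _ _ => trivial)).tendsto _).comp t1)
  have e' : ∀ u : Sec I o.P1, o.W 0 u.1 = c.m.addC c.W u.1 := fun u => by
    rw [Ref.W, Ref.A_eq, cfam_W0 a.conn]
    exact congrArg _ (funext fun x => by
      ext1 b
      rw [Eqv71.idx_apply]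
      exact idx_sum (u.2.2.2 x) b)
  have e : ∀ u v (m : ℕ) (z : EuclideanSpace ℂ (Fin m)),
      Cfg.aw ⟨c.m, c.m.addC c.W u.1, fun x => c.Φ x + v.1 x, z⟩ G.F ξ =
        (cfam B G).F0.val 8 (fun _ => .id ℝ c.m.A) (f ((y u v).pt 7)) := fun u v m z => by
    rw [← aw_fz, ← e' u]
    exact funext fun x => (f2 (y u v) x).symm
  have e0 : c.aw G.F ξ = _ := Eq.trans ?_ (e 0 0 r c.z)
  · rw [e0, funext fun i => e (u i) (v i) n (z i)]
    exact ⟨fun _ => Sob92.continuous_val hS (by omega) _, Sob92.continuous_val hS (by omega) _, t2⟩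
  obtain ⟨m, W, Φ, z⟩ := c
  congr 2
  · funext a x; simp [Md.addC]
  · funext x; simp

/-- observables are continuous for smooth convergence on a fixed module -/
theorem ob_cv {F₀ : Fr I M ι} (a : c.Adm B G) {W : α → c.m.Cn} {Φ : α → M → c.m.V}
    {z : α → EuclideanSpace ℂ (Fin n)} (h : ∀ᶠ i in l, Cfg.Adm ⟨c.m, W i, Φ i, z i⟩ B G)
    (hW : ∀ b, Cmp73.Cv I l univ (fun i => W i b) (c.W b)) (hΦ : Cmp73.Cv I l univ Φ c.Φ)
    (o : Ob F₀) : Tendsto (fun i => ob G.F ⟨c.m, W i, Φ i, z i⟩ o) l (𝓝 (ob G.F c o)) := by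
  classical
  obtain ⟨W', Φ', e, h'⟩ : ∃ (W' : α → c.m.Cn) (Φ' : α → M → c.m.V),
      (∀ᶠ i in l, W' i = W i ∧ Φ' i = Φ i) ∧ ∀ i, Eqv71.Ad0 ⟨c.m, W' i, Φ' i, z i⟩ B G := by
    refine ⟨fun i => if Cfg.Adm ⟨c.m, W i, Φ i, z i⟩ B G then W i else c.W,
      fun i => if Cfg.Adm ⟨c.m, W i, Φ i, z i⟩ B G then Φ i else c.Φ,
      h.mono fun i hi => ⟨if_pos hi, if_pos hi⟩, fun i => ?_⟩
    by_cases hi : Cfg.Adm ⟨c.m, W i, Φ i, z i⟩ B G
    · simpa only [if_pos hi] using Eqv71.ad0 hi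
    · simpa only [if_neg hi] using ⟨a.ok, a.conn, a.sm, a.pos⟩
  have s1 := fun i => Spn45.sm_dif a.ok a.conn (h' i).conn
  have p1 := fun i => Spn45.p1_dif a.conn (h' i).conn a.ok
  have s2 := fun i => (h' i).sm.sub a.sm
  have c1 : Cmp73.Cv I l univ (fun i => Spn45.dif c.m c.W (W' i)) 0 :=
    ((Cmp73.Cv.pi fun b => ((Cmp73.Cv.fixed' a.ok.sp).mul ((hW b).sub
      (.fixed' (a.conn.cc.sm b)))).clm hsL).clm
        (PiLp.continuousLinearEquiv 2 ℝ fun _ : ι => c.m.A).symm.toContinuousLinearMap).congr'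
      isOpen_univ (e.mono fun i hi x _ => by rw [hi.1]; rfl) fun x _ => by ext1; simp
  have c2 : Cmp73.Cv I l univ (fun i x => Φ' i x - c.Φ x) 0 :=
    (hΦ.sub (.fixed' a.sm)).congr' isOpen_univ (e.mono fun i hi x _ => by rw [hi.2])
      fun x _ => by simp
  have aw := fun ξ : {ξ : AW M // ξ.OK F₀} => aw_var h4 hB hG a z s1 p1 s2
    (fun i x => by rw [map_sub, a.pos, (h' i).pos]) c1 c2 (aw_fr G.F ξ.2)
  have e2 : ∀ i, (fun x => c.Φ x + (Φ' i x - c.Φ x)) = Φ' i := fun i =>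
    funext fun x => add_sub_cancel _ _
  refine Tendsto.congr' (f₁ := fun i => ob G.F
    ⟨c.m, c.m.addC c.W (Spn45.dif c.m c.W (W' i)), Φ' i, z i⟩ o) (e.mono fun i hi => ?_) ?_
  · have C := Spn45.isConn_addC a.ok a.conn (s1 i) (p1 i)
    have r := Eqv71.ceq_refl hB hG (h' i) isOpen_univ
    simp only [← hi.1, ← hi.2]
    refine Eqv71.ob_iso hB hG ?_ (h' i) ?_ o
    · exact ⟨a.ok, C, (h' i).sm, (h' i).pos⟩
    · exact ⟨_, 1, r.m, Spn45.par_p (h' i).conn hB fun b x => Spn45.p_addC_dif a.ok b, r.Φ, r.z⟩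
  rcases o with _ | o
  · have u : Uc l Φ' c.Φ := ⟨fun i => (h' i).sm.continuous, a.sm.continuous,
      Metric.tendstoUniformly_iff.2 fun ε hε => (c2.unif isOpen_univ isCompact_univ subset_rfl
        hε).mono fun i hi x => by simpa [dist_eq_norm'] using hi x trivial⟩
    simpa only [ob, real_inner_self_eq_norm_sq] using u.int u G.F.μ
  · refine ((aw o.1).int (aw o.2) G.F.μ).congr fun i => ?_
    rw [← e2 i]
    exact congrArg (fun Φ => ob G.F ⟨c.m, _, Φ, z i⟩ (some o)) (by rw [e2, e2])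

end Crest.Agent.X212.Eq82
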